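import Vale.Agent.P132.Defs
import Vale.Agent.P132.Tomita.Spec
import Vale.Agent.P104.Continuous.Basic

/-!
P132: the hypothesis type III₁ in the form given by Connes' invariant, and the notions used to
derive the Connes–Størmer homogeneity from it. For a factor `S(M) = [0, ∞)` forces type III and
puts every positive number in the spectrum of the modular operator of every faithful normal state;
the latter is written on the core `M η` with bounded data only.
-/

open scoped InnerProductSpace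

namespace Vale.Agent.P132.TypeThree

open Vale.Agent.P132.Tomita

variable {H : Type} [NormedAddCommGroup H] [InnerProductSpace ℂ H] [CompleteSpace H]

/-- `M` is more than the scalars and every nonzero projection in it is equivalent to `1`. For a
factor with a faithful normal state (on a separable space) this is type III. -/
def IsTypeThree (M : VonNeumannAlgebra H) : Prop :=
  (∃ x ∈ M, ∀ c : ℂ, x ≠ c • 1) ∧
    ∀ p ∈ M, IsStarProjection p → p ≠ 0 → ∃ w ∈ M, star w * w = 1 ∧ w * star w = p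

/-- Every `l > 0` is in the spectrum of the modular operator `Δ` of every faithful normal state:
`⟪y* η, x* η⟫ = ⟪Δ^½ x η, Δ^½ y η⟫`, so `(Δ - l) (1 + Δ)^-½ x η` is small on the core `M η`. -/
def HasFullSpectrum (M : VonNeumannAlgebra H) : Prop :=
  ∀ η : H, VP132.IsStandardVector H M η → ∀ l : ℝ, 0 < l → ∀ ε : ℝ, 0 < ε →
    ∃ x ∈ M, x η ≠ 0 ∧ ∀ y ∈ M,
      ‖⟪star y η, star x η⟫_ℂ - (l : ℂ) * ⟪x η, y η⟫_ℂ‖
        ≤ ε * ‖x η‖ * (‖y η‖ + ‖star y η‖)

/-- A type III₁ factor. -/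
def IsTypeIIIOne (M : VonNeumannAlgebra H) : Prop :=
  VP132.IsFactor H M ∧ IsTypeThree M ∧ HasFullSpectrum M

/-- The pairs `(x ξ, J x* ξ)` are dense in the graph of `Δ^½`. -/
def GraphDense (M : VonNeumannAlgebra H) (ξ : H) (R : H →L[ℂ] H) (J : H ≃ₗᵢ⋆[ℂ] H) : Prop :=
  ∀ w : H, ∀ ε : ℝ, 0 < ε → ∃ y ∈ M, ‖y ξ - R w‖ ≤ ε ∧ ‖J (star y ξ) - opT R w‖ ≤ ε

/-- Modular data of one vector. -/
structure StdData (M : VonNeumannAlgebra H) (ξ : H) (R : H →L[ℂ] H) (J : H ≃ₗᵢ⋆[ℂ] H)
    (U : ℝ → (H →L[ℂ] H)) : Prop where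
  std : VP132.IsStandardVector H M ξ
  mod : Modular M ξ R J U
  graph : GraphDense M ξ R J

/-- Every standard vector has modular data. -/
def HasModular (M : VonNeumannAlgebra H) : Prop :=
  ∀ η : H, VP132.IsStandardVector H M η → ∃ R J U, StdData M η R J U

/-- `η` is a positive vector for `J`. -/
def IsConeVec (M : VonNeumannAlgebra H) (J : H ≃ₗᵢ⋆[ℂ] H) (η : H) : Prop :=
  J η = η ∧ ∀ x ∈ M, 0 ≤ (⟪x η, J (star x η)⟫_ℂ).re ∧ (⟪x η, J (star x η)⟫_ℂ).im = 0

/-- The projection `p` of `M` commutes with `η`. -/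
def IsCen (M : VonNeumannAlgebra H) (J : H ≃ₗᵢ⋆[ℂ] H) (η : H) (p : H →L[ℂ] H) : Prop :=
  p ∈ M ∧ IsStarProjection p ∧ J (p η) = p η

/-- `x η - η x`. -/
noncomputable def cm (J : H ≃ₗᵢ⋆[ℂ] H) (η : H) (x : H →L[ℂ] H) : H := x η - J (star x η)

end Vale.Agent.P132.TypeThree
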