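import Vale.Agent.P132.TypeThree.Defs

/-!
P132: the positive form `⟪x η, J x* η⟫` of a standard vector. It gives the criterion for the
centralizer, the uniqueness of the conjugation, and the separation property of pinched vectors.
-/

open scoped InnerProductSpace ComplexConjugate

namespace Vale.Agent.P132.TypeThree

open Vale.Agent.P132.Tomita Vale.Agent.P104.Continuous

variable {H : Type} [NormedAddCommGroup H] [InnerProductSpace ℂ H] [CompleteSpace H]
variable {M : VonNeumannAlgebra H} {η : H} {R : H →L[ℂ] H} {J : H ≃ₗᵢ⋆[ℂ] H}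
  {U : ℝ → (H →L[ℂ] H)}

theorem conjBy_apply (J : H ≃ₗᵢ⋆[ℂ] H) (x : H →L[ℂ] H) (v : H) :
    conjBy J x v = J (x (J v)) := rfl

theorem inner_map_map' (J : H ≃ₗᵢ⋆[ℂ] H) (u v : H) : ⟪J u, J v⟫_ℂ = ⟪v, u⟫_ℂ := by
  have key : ∀ a b : H, (⟪J a, J b⟫_ℂ).re = (⟪a, b⟫_ℂ).re := by
    intro a b
    have h := congrArg (fun t : ℝ => t * t) (J.norm_map (a + b))
    simp only [map_add] at h
    rw [← pow_two, ← pow_two, norm_add_sq (𝕜 := ℂ), norm_add_sq (𝕜 := ℂ), J.norm_map,
      J.norm_map] at h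
    simp only [RCLike.re_to_complex] at h
    linarith
  have h1 := key u v
  have h2 := key u (Complex.I • v)
  rw [J.map_smulₛₗ, inner_smul_right, inner_smul_right, Complex.conj_I] at h2
  have h3 : (⟪J u, J v⟫_ℂ).im = -(⟪u, v⟫_ℂ).im := by simpa using h2
  refine Complex.ext ?_ ?_
  · rw [← inner_conj_symm v u, Complex.conj_re]; exact h1
  · rw [← inner_conj_symm v u, Complex.conj_im]; exact h3

theorem star_conjBy (hJ : ∀ v, J (J v) = v) (x : H →L[ℂ] H) :
    star (conjBy J x) = conjBy J (star x) := by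
  rw [ContinuousLinearMap.star_eq_adjoint]
  symm
  rw [ContinuousLinearMap.eq_adjoint_iff]
  intro u v
  rw [conjBy_apply, conjBy_apply]
  conv_lhs => rw [← hJ v]
  conv_rhs => rw [← hJ u]
  rw [inner_map_map', inner_map_map', ContinuousLinearMap.star_eq_adjoint,
    ContinuousLinearMap.adjoint_inner_right]

theorem commute_apply {b x : H →L[ℂ] H} (hb : b ∈ M.commutant) (hx : x ∈ M) (v : H) :
    b (x v) = x (b v) := DFunLike.congr_fun (mem_iff_comm.1 hx b hb) v

/-! ### Facts about `T` -/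

theorem fT_nonneg' (r : ℝ) : 0 ≤ fT r := Real.sqrt_nonneg _

theorem continuous_fT' : Continuous fT := by
  unfold fT
  fun_prop

theorem opT_selfAdjoint : IsSelfAdjoint (opT R) := cfc_predicate fT R

theorem opT_nonneg : 0 ≤ opT R := cfc_nonneg fun r _ => fT_nonneg' r

theorem re_inner_opT_nonneg (v : H) : 0 ≤ (⟪v, opT R v⟫_ℂ).re :=
  ((ContinuousLinearMap.nonneg_iff_isPositive _).1 opT_nonneg).re_inner_nonneg_right v

theorem im_inner_opT (v : H) : (⟪v, opT R v⟫_ℂ).im = 0 :=
  Complex.conj_eq_iff_im.1 (by rw [inner_conj_symm, inner_proj opT_selfAdjoint])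

theorem opT_injective (h : Modular M η R J U) {v : H} (hv : opT R v = 0) : v = 0 := by
  refine h.dense_T.eq_zero_of_inner_left ℂ fun w => ?_
  rw [← inner_proj opT_selfAdjoint, hv, inner_zero_left]

/-- `⟪v, T v⟫ = 0` only for `v = 0`. -/
theorem eq_zero_of_inner_opT (h : Modular M η R J U) {v : H} (hv : (⟪v, opT R v⟫_ℂ).re = 0) :
    v = 0 := by
  obtain ⟨S, hsa, hs⟩ : ∃ S : H →L[ℂ] H, IsSelfAdjoint S ∧ S * S = opT R :=
    ⟨_, (CFC.sqrt_nonneg _).isSelfAdjoint, CFC.sqrt_mul_sqrt_self _ opT_nonneg⟩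
  have h0 : S v = 0 := by
    rw [← hs, apply_mul, ← inner_proj hsa, inner_self_eq_norm_sq_to_K] at hv
    simpa [← Complex.ofReal_pow] using hv
  refine opT_injective h ?_
  rw [← hs, apply_mul, h0, map_zero]

theorem opT_sq (h : Modular M η R J U) (v : H) :
    opT R (opT R v) = R ((2 : ℂ) • v - R v) := by
  have e : opT R * opT R = cfc (fun r : ℝ => r * (2 - r)) R := by
    rw [opT, ← cfc_mul fT fT R continuous_fT'.continuousOn continuous_fT'.continuousOn]
    refine cfc_congr fun r hr => ?_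
    have := h.R_spec hr
    exact Real.mul_self_sqrt (mul_nonneg this.1 (by linarith [this.2]))
  have e2 : cfc (fun r : ℝ => r * (2 - r)) R = R * (2 - R) := by
    rw [cfc_mul (fun r : ℝ => r) (fun r => 2 - r) R, cfc_id' ℝ R h.R_sa,
      cfc_sub (fun _ : ℝ => (2 : ℝ)) (fun r => r) R, cfc_const (2 : ℝ) R h.R_sa, cfc_id' ℝ R h.R_sa,
      map_ofNat]
  rw [← apply_mul, e, e2, apply_mul, sub_apply]
  congr 1
  simp [show (2 : H →L[ℂ] H) = 1 + 1 by norm_num, two_smul]

/-! ### The graph identities and the form -/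

/-- `(2 - R) x η = T J x* η`. -/
theorem graph_one (h : Modular M η R J U) {x : H →L[ℂ] H} (hx : x ∈ M) :
    (2 : ℂ) • x η - R (x η) = opT R (J (star x η)) := by
  have e := congrArg J (h.S_eq x hx)
  rwa [h.J_J, h.J_T] at e

/-- `R J x* η = T x η`. -/
theorem graph_two (h : Modular M η R J U) {x : H →L[ℂ] H} (hx : x ∈ M) :
    R (J (star x η)) = opT R (x η) := by
  have e := h.S_eq (star x) (star_mem hx)
  rw [star_star, map_sub, J.map_smulₛₗ, h.J_R, map_ofNat] at e
  rw [← e]
  abel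

theorem two_mul_inner_form (h : Modular M η R J U) {x y : H →L[ℂ] H} (hx : x ∈ M) (hy : y ∈ M) :
    2 * ⟪x η, J (star y η)⟫_ℂ
      = ⟪x η, opT R (y η)⟫_ℂ + ⟪J (star x η), opT R (J (star y η))⟫_ℂ := by
  have e1 : ⟪x η, R (J (star y η))⟫_ℂ = ⟪x η, opT R (y η)⟫_ℂ := by rw [graph_two h hy]
  have e2 : ⟪J (star x η), opT R (J (star y η))⟫_ℂ
      = 2 * ⟪x η, J (star y η)⟫_ℂ - ⟪x η, R (J (star y η))⟫_ℂ := by
    rw [← inner_proj opT_selfAdjoint, ← graph_one h hx, inner_sub_left, inner_proj h.R_sa,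
      inner_smul_left, map_ofNat]
  rw [e2, ← e1]
  ring

theorem isConeVec_self (h : Modular M η R J U) : IsConeVec M J η := by
  refine ⟨h.J_xi, fun x hx => ?_⟩
  have e := two_mul_inner_form h hx hx
  have e1 := congrArg Complex.re e
  have e2 := congrArg Complex.im e
  simp only [Complex.mul_re, Complex.mul_im, Complex.re_ofNat, Complex.im_ofNat, Complex.add_re,
    Complex.add_im, im_inner_opT, zero_mul, sub_zero, add_zero] at e1 e2
  exact ⟨by nlinarith [re_inner_opT_nonneg (R := R) (x η),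
    re_inner_opT_nonneg (R := R) (J (star x η))], by linarith⟩

theorem form_conj (h : Modular M η R J U) {x y : H →L[ℂ] H} (hx : x ∈ M) (hy : y ∈ M) :
    conj ⟪x η, J (star y η)⟫_ℂ = ⟪y η, J (star x η)⟫_ℂ := by
  refine mul_left_cancel₀ (two_ne_zero (α := ℂ)) ?_
  rw [two_mul_inner_form h hy hx, ← map_ofNat (starRingEnd ℂ) 2, ← map_mul,
    two_mul_inner_form h hx hy, map_add, inner_conj_symm, inner_conj_symm,
    inner_proj opT_selfAdjoint, inner_proj opT_selfAdjoint]

/-- The form is faithful. -/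
theorem form_faithful (h : StdData M η R J U) {x : H →L[ℂ] H} (hx : x ∈ M)
    (h0 : (⟪x η, J (star x η)⟫_ℂ).re = 0) : x = 0 := by
  have e := congrArg Complex.re (two_mul_inner_form h.mod hx hx)
  simp only [Complex.mul_re, Complex.re_ofNat, Complex.im_ofNat, zero_mul, sub_zero, h0, mul_zero,
    Complex.add_re] at e
  have := re_inner_opT_nonneg (R := R) (x η)
  have := re_inner_opT_nonneg (R := R) (J (star x η))
  exact h.std.2.2 x hx (eq_zero_of_inner_opT h.mod (by linarith))

/-- Separation for pinched vectors: `y p η p = 0` gives `y p = 0`. -/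
theorem pinch_separating (h : StdData M η R J U) {y p : H →L[ℂ] H} (hy : y ∈ M) (hp : p ∈ M)
    (hpp : IsStarProjection p) (h0 : y (p (J (p η))) = 0) : y * p = 0 := by
  set b := star (y * p) * (y * p) with hb
  have hbM : b ∈ M := mul_mem (star_mem (mul_mem hy hp)) (mul_mem hy hp)
  have hbs : star b = b := (IsSelfAdjoint.star_mul_self _).star_eq
  have hbp : b * p = b := by
    rw [hb, mul_assoc, mul_assoc, hpp.isIdempotentElem.eq]
  have hbz : b (J (p η)) = 0 := by
    rw [hb, apply_mul, apply_mul, h0, map_zero]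
  have hcomm : conjBy J b (b (J (p η))) = b (conjBy J b (J (p η))) :=
    commute_apply (h.mod.conj_mem b hbM) hbM _
  rw [hbz, map_zero, conjBy_apply, h.mod.J_J, ← apply_mul b p, hbp] at hcomm
  have hb0 : b = 0 := by
    refine form_faithful h hbM ?_
    rw [hbs, inner_proj hbs]
    simp [← hcomm]
  exact eq_zero_of_star_mul_self hb0

/-! ### The centralizer -/

/-- A projection of `M` that acts on `η` as a projection of `M'` commutes with `η`. -/
theorem isCen_of_commutant (h : StdData M η R J U) {e e' : H →L[ℂ] H} (he : e ∈ M)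
    (hep : IsStarProjection e) (he' : e' ∈ M.commutant) (hep' : IsStarProjection e')
    (hee : e η = e' η) : J (e η) = e η ∧ R (e η) = e η := by
  have key : ∀ y ∈ M, ⟪e η, y η⟫_ℂ = ⟪J (e η), J (star y η)⟫_ℂ := by
    intro y hy
    rw [inner_map_map']
    calc ⟪e η, y η⟫_ℂ = ⟪e' η, y η⟫_ℂ := by rw [hee]
      _ = ⟪η, y (e' η)⟫_ℂ := by
        rw [inner_proj hep'.isSelfAdjoint, commute_apply he' hy]
      _ = ⟪star y η, e η⟫_ℂ := by
        rw [ContinuousLinearMap.star_eq_adjoint, ContinuousLinearMap.adjoint_inner_left, hee]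
  obtain ⟨v, hv⟩ : ∃ v, v = e η := ⟨_, rfl⟩
  rw [← hv] at key ⊢
  have hR : R v = opT R (J v) := by
    refine ext_inner_right ℂ fun w => ?_
    rw [inner_proj h.mod.R_sa, inner_proj opT_selfAdjoint]
    refine eq_of_forall_dist_le fun ε hε => ?_
    obtain ⟨y, hy, h1, h2⟩ := h.graph w (ε / (2 * ‖v‖ + 1)) (by positivity)
    rw [dist_eq_norm]
    calc ‖⟪v, R w⟫_ℂ - ⟪J v, opT R w⟫_ℂ‖
        = ‖⟪v, R w - y η⟫_ℂ + ⟪J v, J (star y η) - opT R w⟫_ℂ‖ := by
          rw [inner_sub_right, inner_sub_right, key y hy]; congr 1; ring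
      _ ≤ ‖v‖ * (ε / (2 * ‖v‖ + 1)) + ‖v‖ * (ε / (2 * ‖v‖ + 1)) := by
          refine (norm_add_le _ _).trans (add_le_add ?_ ?_)
          · exact (norm_inner_le_norm _ _).trans
              (mul_le_mul_of_nonneg_left (by rwa [norm_sub_rev]) (norm_nonneg _))
          · refine (norm_inner_le_norm _ _).trans ?_
            rw [J.norm_map]
            exact mul_le_mul_of_nonneg_left h2 (norm_nonneg _)
      _ ≤ ε := by
          rw [← two_mul, ← mul_assoc, mul_div_assoc', div_le_iff₀ (by positivity)]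
          nlinarith [norm_nonneg v]
  have hg := graph_one h.mod he
  rw [hep.isSelfAdjoint.star_eq, ← hv, ← hR, sub_eq_iff_eq_add, ← two_smul ℂ (R v)] at hg
  have hRv : R v = v := (smul_right_injective H (two_ne_zero (α := ℂ)) hg).symm
  refine ⟨?_, hRv⟩
  have hTJ : opT R (J v) = v := by rw [← hR, hRv]
  have hTv : opT R v = J v := by
    have e2 := congrArg J hTJ
    rwa [h.mod.J_T, h.mod.J_J] at e2
  have hd : opT R (J v - v) = -(J v - v) := by rw [map_sub, hTJ, hTv]; abel
  have := re_inner_opT_nonneg (R := R) (J v - v)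
  rw [hd, inner_neg_right, Complex.neg_re, inner_self_eq_norm_sq_to_K] at this
  refine sub_eq_zero.1 (norm_eq_zero.1 ?_)
  simp [← Complex.ofReal_pow] at this
  simp [this]

theorem IsCen.R_fix (h : StdData M η R J U) {e : H →L[ℂ] H} (he : IsCen M J η e) :
    R (e η) = e η := by
  refine (isCen_of_commutant h he.1 he.2.1 (e' := conjBy J e) (h.mod.conj_mem e he.1) ⟨?_, ?_⟩ ?_).2
  · ext v
    simp only [apply_mul, conjBy_apply, h.mod.J_J]
    rw [← apply_mul e e, he.2.1.isIdempotentElem.eq]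
  · rw [IsSelfAdjoint, star_conjBy h.mod.J_J, he.2.1.isSelfAdjoint.star_eq]
  · rw [conjBy_apply, h.mod.J_xi, he.2.2]

/-- A separating vector fixed by `J` is cyclic. -/
theorem dense_of_fixed {J : H ≃ₗᵢ⋆[ℂ] H} (hJ : ∀ v, J (J v) = v)
    (hc : ∀ y ∈ M.commutant, conjBy J y ∈ M) {ζ : H} (hζ : J ζ = ζ)
    (hsep : ∀ x ∈ M, x ζ = 0 → x = 0) : Dense {v : H | ∃ x ∈ M, x ζ = v} := by
  let W : Submodule ℂ H :=
    { carrier := {v | ∃ y ∈ M, y ζ = v}
      zero_mem' := ⟨0, zero_mem _, rfl⟩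
      add_mem' := by
        rintro _ _ ⟨x, hx, rfl⟩ ⟨y, hy, rfl⟩
        exact ⟨x + y, add_mem hx hy, rfl⟩
      smul_mem' := by
        rintro c _ ⟨x, hx, rfl⟩
        exact ⟨c • x, smul_mem_vn _ hx, rfl⟩ }
  have hW : ∀ b ∈ M, ∀ v ∈ W, b v ∈ W := by
    rintro b hb _ ⟨y, hy, rfl⟩
    exact ⟨b * y, mul_mem hb hy, rfl⟩
  have hq : 1 - cl W ∈ M.commutant := by
    refine sub_mem (one_mem _) (VonNeumannAlgebra.mem_commutant_iff.2 fun b hb => ?_)
    exact cl_comm (hW b hb) (hW _ (star_mem hb))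
  have h0 : conjBy J (1 - cl W) = 0 := by
    refine hsep _ (hc _ hq) ?_
    rw [conjBy_apply, hζ, sub_apply, one_apply_eq_self,
      cl_fix (K := W) (v := ζ) ⟨1, one_mem _, by simp⟩, sub_self, map_zero]
  have htop : W.topologicalClosure = ⊤ := by
    refine eq_top_iff.2 fun v _ => ?_
    have e := DFunLike.congr_fun h0 (J v)
    rw [conjBy_apply, hJ, zero_apply, map_eq_zero_iff _ J.injective, sub_apply, one_apply_eq_self,
      sub_eq_zero] at e
    rw [e]
    exact W.topologicalClosure.starProjection_apply_mem v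
  exact Submodule.dense_iff_topologicalClosure_eq_top.2 htop

end Vale.Agent.P132.TypeThree
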