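import Mathlib

/-!
P132: the scalar Fourier facts used for spectral smoothing along the modular group: a kernel with
prescribed compactly supported transform, and the growth of its `L¹` norm under exponential tilts.
-/

open scoped FourierTransform
open MeasureTheory Real

namespace Vale.Agent.P132.TypeThree

/-- The `L¹` data of a twice differentiable compactly supported function. -/
theorem fourier_kernel {g : ℝ → ℂ} (hg : ContDiff ℝ 2 g) (hc : HasCompactSupport g) :
    Continuous (𝓕 g) ∧ Integrable (𝓕 g) ∧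
      (∫ w, ‖𝓕 g w‖) ≤ π * ((∫ l, ‖g l‖) + ∫ l, ‖iteratedDeriv 2 g l‖) ∧
      ∀ l : ℝ, ∫ w, 𝓕 g w * Complex.exp (((2 * π * w * l : ℝ) : ℂ) * Complex.I) = g l := by
  have hd1 : iteratedDeriv 1 g = deriv g := iteratedDeriv_one
  have hcs1 : HasCompactSupport (deriv g) := hc.deriv
  have hcs2 : HasCompactSupport (iteratedDeriv 2 g) := by
    rw [show (2 : ℕ) = 1 + 1 from rfl, iteratedDeriv_succ, hd1]; exact hcs1.deriv
  have hint : ∀ k : ℕ, (k : ℕ∞) ≤ 2 → Integrable (iteratedDeriv k g) := by
    intro k hk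
    have hcont : Continuous (iteratedDeriv k g) := hg.continuous_iteratedDeriv k (by exact_mod_cast hk)
    refine hcont.integrable_of_hasCompactSupport ?_
    have hk' : k ≤ 2 := by exact_mod_cast hk
    match k with
    | 0 => simpa using hc
    | 1 => rw [hd1]; exact hcs1
    | 2 => exact hcs2
  have hg0 : Integrable g := hg.continuous.integrable_of_hasCompactSupport hc
  have hg2 : Integrable (iteratedDeriv 2 g) := hint 2 le_rfl
  have hF := Real.fourier_iteratedDeriv (N := 2) (n := 2) hg hint le_rfl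
  set C := (∫ l, ‖g l‖) + ∫ l, ‖iteratedDeriv 2 g l‖ with hC
  have hbound : ∀ w : ℝ, ‖𝓕 g w‖ ≤ C * (1 + w ^ 2)⁻¹ := by
    intro w
    have h0 : ‖𝓕 g w‖ ≤ ∫ l, ‖g l‖ := by
      rw [Real.fourier_real_eq]
      exact (norm_integral_le_integral_norm _).trans_eq (by simp)
    have h2 : (2 * π * |w|) ^ 2 * ‖𝓕 g w‖ ≤ ∫ l, ‖iteratedDeriv 2 g l‖ := by
      have e := congrFun hF w
      have : ‖𝓕 (iteratedDeriv 2 g) w‖ = (2 * π * |w|) ^ 2 * ‖𝓕 g w‖ := by
        rw [e, norm_smul, norm_pow]
        simp [abs_of_pos Real.pi_pos]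
      rw [← this, Real.fourier_real_eq]
      exact (norm_integral_le_integral_norm _).trans_eq (by simp)
    rw [le_mul_inv_iff₀ (by positivity)]
    have hpi : 1 ≤ (2 * π) ^ 2 := by nlinarith [Real.pi_gt_three]
    have : w ^ 2 * ‖𝓕 g w‖ ≤ (2 * π * |w|) ^ 2 * ‖𝓕 g w‖ := by
      refine mul_le_mul_of_nonneg_right ?_ (norm_nonneg _)
      rw [mul_pow, sq_abs]
      nlinarith [sq_nonneg w]
    nlinarith
  have hcont : Continuous (𝓕 g) := by
    exact VectorFourier.fourierIntegral_continuous Real.continuous_fourierChar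
      (by exact continuous_inner) hg0
  have hFi : Integrable (𝓕 g) :=
    (integrable_inv_one_add_sq.const_mul C).mono' hcont.aestronglyMeasurable
      (Filter.Eventually.of_forall hbound)
  refine ⟨hcont, hFi, ?_, fun l => ?_⟩
  · refine (integral_mono hFi.norm (integrable_inv_one_add_sq.const_mul C) hbound).trans_eq ?_
    rw [integral_const_mul, integral_univ_inv_one_add_sq, mul_comm]
  · have e := congrFun (hg.continuous.fourierInv_fourier_eq hg0 hFi) l
    conv_rhs => rw [← e]
    rw [fourierInv_eq']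
    refine integral_congr_ae (Filter.Eventually.of_forall fun w => ?_)
    simp only [smul_eq_mul, RCLike.inner_apply, conj_trivial]
    rw [mul_comm]
    congr 2
    push_cast
    ring

/-- A smooth function times `exp (c l)`, and the `L¹` norms of it and of its second derivative. -/
theorem tilt_bound {β : ℝ → ℝ} (hβ : ContDiff ℝ 2 β) {p d : ℝ} (hd : 0 ≤ d)
    (hsupp : tsupport β ⊆ Metric.closedBall p d) :
    ∃ C : ℝ, 0 ≤ C ∧ ∀ c : ℝ,
      (∫ l, ‖((β l * Real.exp (c * l) : ℝ) : ℂ)‖)
          + (∫ l, ‖iteratedDeriv 2 (fun l => ((β l * Real.exp (c * l) : ℝ) : ℂ)) l‖)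
        ≤ C * (1 + c ^ 2) * Real.exp (c * p + |c| * d) := by
  have hdβ : ContDiff ℝ 1 (deriv β) := by
    have := (contDiff_succ_iff_deriv (n := 1)).1 (show ContDiff ℝ (1 + 1) β from hβ.of_le (by norm_num))
    exact this.2.2
  have hc : HasCompactSupport β :=
    (isCompact_closedBall p d).of_isClosed_subset (isClosed_tsupport β) hsupp
  have hcd : HasCompactSupport (deriv β) := hc.deriv
  have i0 : Integrable fun l => |β l| :=
    (hβ.continuous.integrable_of_hasCompactSupport hc).abs
  have i1 : Integrable fun l => |deriv β l| :=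
    (hdβ.continuous.integrable_of_hasCompactSupport hcd).abs
  have i2 : Integrable fun l => |deriv (deriv β) l| :=
    ((hdβ.continuous_deriv le_rfl).integrable_of_hasCompactSupport hcd.deriv).abs
  refine ⟨2 * (∫ l, |β l|) + 2 * (∫ l, |deriv β l|) + (∫ l, |deriv (deriv β) l|), ?_, fun c => ?_⟩
  · positivity
  set E := Real.exp (c * p + |c| * d) with hE
  have hexp : ∀ l ∈ tsupport β, Real.exp (c * l) ≤ E := by
    intro l hl
    have h1 := hsupp hl
    rw [Metric.mem_closedBall, Real.dist_eq] at h1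
    refine Real.exp_le_exp.2 ?_
    nlinarith [abs_mul c (l - p), le_abs_self (c * (l - p)),
      mul_le_mul_of_nonneg_left h1 (abs_nonneg c)]
  have hout : ∀ l ∉ tsupport β, β l = 0 ∧ deriv β l = 0 ∧ deriv (deriv β) l = 0 := fun l hl =>
    ⟨image_eq_zero_of_notMem_tsupport hl,
      image_eq_zero_of_notMem_tsupport fun h => hl (tsupport_deriv_subset h),
      image_eq_zero_of_notMem_tsupport fun h =>
        hl (tsupport_deriv_subset (tsupport_deriv_subset h))⟩
  have hD : ∀ l, iteratedDeriv 2 (fun l => ((β l * Real.exp (c * l) : ℝ) : ℂ)) l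
      = (((deriv (deriv β) l + 2 * c * deriv β l + c ^ 2 * β l) * Real.exp (c * l) : ℝ) : ℂ) := by
    have he : ∀ l : ℝ, HasDerivAt (fun l => Real.exp (c * l)) (Real.exp (c * l) * c) l := by
      intro l
      simpa using ((hasDerivAt_id l).const_mul c).exp
    have h1 : ∀ l, HasDerivAt (fun l => ((β l * Real.exp (c * l) : ℝ) : ℂ))
        (((deriv β l + c * β l) * Real.exp (c * l) : ℝ) : ℂ) l := by
      intro l
      refine (((hβ.differentiable (by simp)) l).hasDerivAt.mul (he l)).ofReal_comp.congr_deriv ?_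
      push_cast; ring
    have h2 : ∀ l, HasDerivAt (fun l => (((deriv β l + c * β l) * Real.exp (c * l) : ℝ) : ℂ))
        (((deriv (deriv β) l + 2 * c * deriv β l + c ^ 2 * β l) * Real.exp (c * l) : ℝ) : ℂ) l := by
      intro l
      refine ((((hdβ.differentiable one_ne_zero) l).hasDerivAt.add
        (((hβ.differentiable (by simp)) l).hasDerivAt.const_mul c)).mul
          (he l)).ofReal_comp.congr_deriv ?_
      simp only [Pi.add_apply]
      push_cast; ring
    intro l
    rw [show (2 : ℕ) = 1 + 1 from rfl, iteratedDeriv_succ, iteratedDeriv_one]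
    rw [show deriv (fun l => ((β l * Real.exp (c * l) : ℝ) : ℂ))
      = fun l => (((deriv β l + c * β l) * Real.exp (c * l) : ℝ) : ℂ) from
        funext fun l => (h1 l).deriv]
    exact (h2 l).deriv
  have iB : Integrable fun l => E * |β l| := i0.const_mul E
  have iD : Integrable fun l =>
      E * ((|deriv (deriv β) l| + (1 + c ^ 2) * |deriv β l|) + c ^ 2 * |β l|) :=
    ((i2.add (i1.const_mul (1 + c ^ 2))).add (i0.const_mul (c ^ 2))).const_mul E
  have hb0 : (∫ l, ‖((β l * Real.exp (c * l) : ℝ) : ℂ)‖) ≤ E * ∫ l, |β l| := by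
    rw [← integral_const_mul]
    refine integral_mono_of_nonneg (Filter.Eventually.of_forall fun _ => norm_nonneg _) iB
      (Filter.Eventually.of_forall fun l => ?_)
    simp only [Complex.norm_real, Real.norm_eq_abs, abs_mul, abs_of_pos (Real.exp_pos _)]
    by_cases hl : l ∈ tsupport β
    · rw [mul_comm]; exact mul_le_mul_of_nonneg_right (hexp l hl) (abs_nonneg _)
    · simp [(hout l hl).1]
  have hb2 : (∫ l, ‖iteratedDeriv 2 (fun l => ((β l * Real.exp (c * l) : ℝ) : ℂ)) l‖)
      ≤ ∫ l, E * ((|deriv (deriv β) l| + (1 + c ^ 2) * |deriv β l|) + c ^ 2 * |β l|) := by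
    refine integral_mono_of_nonneg (Filter.Eventually.of_forall fun _ => norm_nonneg _) iD
      (Filter.Eventually.of_forall fun l => ?_)
    simp only [hD, Complex.norm_real, Real.norm_eq_abs, abs_mul, abs_of_pos (Real.exp_pos _)]
    by_cases hl : l ∈ tsupport β
    · rw [mul_comm]
      refine mul_le_mul (hexp l hl) ?_ (abs_nonneg _) (Real.exp_pos _).le
      refine (abs_add_three _ _ _).trans (add_le_add (add_le_add le_rfl ?_) ?_)
      · rw [abs_mul]
        refine mul_le_mul_of_nonneg_right ?_ (abs_nonneg _)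
        rw [abs_mul, abs_two]
        nlinarith [sq_nonneg (|c| - 1), sq_abs c]
      · rw [abs_mul, abs_sq]
    · simp [hout l hl]
  have hsplit : (∫ l, (|deriv (deriv β) l| + (1 + c ^ 2) * |deriv β l|) + c ^ 2 * |β l|)
      = (∫ l, |deriv (deriv β) l|) + (1 + c ^ 2) * (∫ l, |deriv β l|) + c ^ 2 * ∫ l, |β l| := by
    have j : Integrable fun l => |deriv (deriv β) l| + (1 + c ^ 2) * |deriv β l| :=
      i2.add (i1.const_mul _)
    rw [integral_add j (i0.const_mul _), integral_add i2 (i1.const_mul _), integral_const_mul,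
      integral_const_mul]
  rw [integral_const_mul, hsplit] at hb2
  have p0 : 0 ≤ ∫ l, |β l| := integral_nonneg fun _ => abs_nonneg _
  have p1 : 0 ≤ ∫ l, |deriv β l| := integral_nonneg fun _ => abs_nonneg _
  have p2 : 0 ≤ ∫ l, |deriv (deriv β) l| := integral_nonneg fun _ => abs_nonneg _
  have hE0 : 0 ≤ E := (Real.exp_pos _).le
  nlinarith [mul_nonneg (sq_nonneg c) p2, mul_nonneg (sq_nonneg c) p0, mul_nonneg hE0 p1,
    mul_nonneg hE0 p0, mul_nonneg hE0 (mul_nonneg (sq_nonneg c) p2),
    mul_nonneg hE0 (mul_nonneg (sq_nonneg c) p1), mul_nonneg hE0 (mul_nonneg (sq_nonneg c) p0)]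

/-- Polynomial growth is absorbed by a small exponential. -/
theorem one_add_sq_le_exp {a : ℝ} (ha : 0 < a) (x : ℝ) :
    1 + x ^ 2 ≤ (1 + 2 / a ^ 2) * Real.exp (a * |x|) := by
  have h := Real.quadratic_le_exp_of_nonneg (by positivity : 0 ≤ a * |x|)
  have h1 : (1 : ℝ) ≤ Real.exp (a * |x|) := Real.one_le_exp (by positivity)
  have h2 : x ^ 2 ≤ 2 / a ^ 2 * Real.exp (a * |x|) := by
    rw [div_mul_eq_mul_div, le_div_iff₀ (by positivity)]
    nlinarith [sq_abs x, mul_nonneg ha.le (abs_nonneg x)]
  linarith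

end Vale.Agent.P132.TypeThree
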