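import Vale.Agent.P132.TypeThree.Unique
import Vale.Agent.P132.TypeThree.Fourier

/-!
P132: smoothing along the modular group. For `x` in `M` and a smooth `b` with compact support
there is `y` in `M` with `y η = b(log Δ) x η`, and its norm is controlled by `b`.
-/

open scoped InnerProductSpace ComplexConjugate FourierTransform Topology
open MeasureTheory Filter

namespace Vale.Agent.P132.TypeThree

open Vale.Agent.P132.Tomita Vale.Agent.P104.Continuous

variable {H : Type} [NormedAddCommGroup H] [InnerProductSpace ℂ H] [CompleteSpace H]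
variable {M : VonNeumannAlgebra H} {η : H} {R : H →L[ℂ] H} {J : H ≃ₗᵢ⋆[ℂ] H}
  {U : ℝ → (H →L[ℂ] H)}

/-- `log Δ` as a function of `R`. -/
noncomputable def lg (r : ℝ) : ℝ := Real.log (2 - r) - Real.log r

/-- `b(log Δ)` as a function of `R`. -/
noncomputable def cut (b : ℝ → ℝ) (r : ℝ) : ℝ := if 0 < r ∧ r < 2 then b (lg r) else 0

theorem fT_zero {r : ℝ} (h : ¬(0 < r ∧ r < 2)) : fT r = 0 := by
  refine Real.sqrt_eq_zero'.2 ?_
  by_cases h0 : 0 < r
  · have : 2 ≤ r := not_lt.1 fun h2 => h ⟨h0, h2⟩
    nlinarith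
  · nlinarith

theorem fT_mul_cut (b : ℝ → ℝ) (r : ℝ) : fT r * cut b r = fT r * b (lg r) := by
  by_cases h : 0 < r ∧ r < 2
  · rw [cut, if_pos h]
  · rw [fT_zero h, zero_mul, zero_mul]

theorem exp_lg {r : ℝ} (h0 : 0 < r) (h2 : r < 2) : Real.exp (lg r) = (2 - r) / r := by
  rw [lg, Real.exp_sub, Real.exp_log (by linarith), Real.exp_log h0]

theorem continuousAt_lg {r : ℝ} (h0 : 0 < r) (h2 : r < 2) : ContinuousAt lg r :=
  ((continuousAt_const.sub continuousAt_id).log (show (2 : ℝ) - r ≠ 0 by linarith)).sub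
    (Real.continuousAt_log (by linarith))

theorem continuous_cut {b : ℝ → ℝ} (hb : Continuous b) (hc : HasCompactSupport b) :
    Continuous (cut b) := by
  obtain ⟨L, hL⟩ : ∃ L : ℝ, ∀ l, b l ≠ 0 → |l| ≤ L := by
    obtain ⟨L, hL⟩ := hc.isCompact.isBounded.subset_closedBall 0
    exact ⟨L, fun l hl => by simpa [Real.dist_eq] using hL (subset_tsupport b hl)⟩
  set r0 := 2 / (1 + Real.exp (L + 1)) with hr0
  have hr0p : 0 < r0 := by positivity
  have hzero : ∀ r, r < r0 ∨ 2 - r0 < r → cut b r = 0 := by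
    intro r hr
    by_cases h : 0 < r ∧ r < 2
    · rw [cut, if_pos h]
      by_contra hne
      have hl := abs_le.1 (hL _ hne)
      have e := exp_lg h.1 h.2
      have hE : r0 * (1 + Real.exp (L + 1)) = 2 := by rw [hr0]; field_simp
      rcases hr with hr | hr
      · have h1 : Real.exp (lg r) ≤ Real.exp (L + 1) := Real.exp_le_exp.2 (by linarith)
        rw [e, div_le_iff₀ h.1] at h1
        nlinarith [Real.exp_pos (L + 1)]
      · have h1 : Real.exp (-(L + 1)) ≤ Real.exp (lg r) := Real.exp_le_exp.2 (by linarith)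
        rw [e, Real.exp_neg, le_div_iff₀ h.1, inv_mul_le_iff₀ (Real.exp_pos _)] at h1
        nlinarith [Real.exp_pos (L + 1)]
    · rw [cut, if_neg h]
  rw [continuous_iff_continuousAt]
  intro r
  by_cases h : 0 < r ∧ r < 2
  · refine ((hb.continuousAt.comp (continuousAt_lg h.1 h.2))).congr ?_
    filter_upwards [Ioo_mem_nhds h.1 h.2] with s hs
    rw [cut, if_pos ⟨hs.1, hs.2⟩]; rfl
  · have hev : ∀ᶠ s in 𝓝 r, cut b s = 0 := by
      by_cases h0 : 0 < r
      · have h2 : 2 ≤ r := not_lt.1 fun h2 => h ⟨h0, h2⟩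
        filter_upwards [Ioi_mem_nhds (show 2 - r0 < r by linarith)] with s hs
        exact hzero s (Or.inr hs)
      · filter_upwards [Iio_mem_nhds (show r < r0 by linarith)] with s hs
        exact hzero s (Or.inl hs)
    exact (continuousAt_const (y := (0 : ℝ))).congr (hev.mono fun s hs => hs.symm)

theorem continuous_fU : Continuous fun p : ℝ × ℝ => fU p.1 p.2 := by
  rw [continuous_iff_continuousAt]
  rintro ⟨t, r⟩
  by_cases h : 0 < r ∧ r < 2
  · have hl : ContinuousAt (fun p : ℝ × ℝ => lg p.2) (t, r) :=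
      ContinuousAt.comp' (f := Prod.snd) (g := lg) (continuousAt_lg h.1 h.2) continuousAt_snd
    refine ContinuousAt.mul
      ((Complex.continuous_ofReal.comp (continuous_fT'.comp continuous_snd)).continuousAt) ?_
    refine Complex.continuous_exp.continuousAt.comp' (ContinuousAt.mul ?_ continuousAt_const)
    exact Complex.continuous_ofReal.continuousAt.comp' (continuousAt_fst.mul hl)
  · have h0 : fU t r = 0 := by simp [fU, fT_zero h]
    rw [ContinuousAt, h0]
    refine squeeze_zero_norm (fun p => ?_) ?_ (a := fun p : ℝ × ℝ => fT p.2)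
    · rw [fU, norm_mul, Complex.norm_exp_ofReal_mul_I, mul_one, Complex.norm_real,
        Real.norm_of_nonneg (fT_nonneg' _)]
    · have := (continuous_fT'.comp continuous_snd).tendsto (t, r)
      simpa [fT_zero h, Function.comp_def] using this

theorem norm_fU_le (t r : ℝ) : ‖fU t r‖ = fT r := by
  rw [fU, norm_mul, Complex.norm_exp_ofReal_mul_I, mul_one, Complex.norm_real,
    Real.norm_of_nonneg (fT_nonneg' _)]

/-! ### The modular group -/

theorem U_neg_mul (h : Modular M η R J U) (t : ℝ) : U (-t) * U t = 1 := by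
  rw [← h.U_add, neg_add_cancel, h.U_zero]

theorem norm_U_apply (h : Modular M η R J U) (t : ℝ) (v : H) : ‖U t v‖ = ‖v‖ := by
  have e : ⟪U t v, U t v⟫_ℂ = ⟪v, v⟫_ℂ := by
    rw [← ContinuousLinearMap.adjoint_inner_right, ← ContinuousLinearMap.star_eq_adjoint, h.U_star,
      ← apply_mul, U_neg_mul h, one_apply_eq_self]
  rw [inner_self_eq_norm_sq_to_K, inner_self_eq_norm_sq_to_K] at e
  exact (sq_eq_sq₀ (norm_nonneg _) (norm_nonneg _)).1 (Complex.ofReal_injective (by simpa using e))

theorem U_R_apply (h : Modular M η R J U) (t : ℝ) (v : H) : U t (R v) = R (U t v) :=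
  DFunLike.congr_fun (h.U_R t) v

theorem U_opT (h : Modular M η R J U) (t : ℝ) (v : H) : U t (opT R v) = opT R (U t v) :=
  DFunLike.congr_fun ((show Commute R (U t) from (h.U_R t).symm).cfc_real fT).eq.symm v

theorem IsCen.U_fix (h : StdData M η R J U) {e : H →L[ℂ] H} (he : IsCen M J η e) (t : ℝ) :
    U t (e η) = e η := by
  have hv := he.R_fix h
  have hT : opT R (e η) = e η := by
    rw [opT, cfc_fixed h.mod.R_sa h.mod.R_spec hv continuous_fT', fT]
    norm_num
  have hc : Continuous fun r => fU t r :=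
    continuous_fU.comp (Continuous.prodMk continuous_const continuous_id)
  have hre : Continuous fun r => (fU t r).re := Complex.continuous_re.comp hc
  have him : Continuous fun r => (fU t r).im := Complex.continuous_im.comp hc
  have hd : cfc (fun z : ℂ => fU t z.re) R
      = cfc (fun r => (fU t r).re) R + Complex.I • cfc (fun r => (fU t r).im) R := by
    have h1 : Continuous fun z : ℂ => (((fU t z.re).re : ℝ) : ℂ) :=
      Complex.continuous_ofReal.comp (hre.comp Complex.continuous_re)
    have h2 : Continuous fun z : ℂ => (((fU t z.re).im : ℝ) : ℂ) :=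
      Complex.continuous_ofReal.comp (him.comp Complex.continuous_re)
    rw [cfc_real_eq_complex _ h.mod.R_sa, cfc_real_eq_complex _ h.mod.R_sa,
      ← cfc_smul Complex.I _ R h2.continuousOn,
      ← cfc_add (a := R) (fun z : ℂ => (((fU t z.re).re : ℝ) : ℂ))
        (fun z => Complex.I • (((fU t z.re).im : ℝ) : ℂ)) h1.continuousOn
        (h2.const_smul Complex.I).continuousOn]
    congr 1
    funext z
    rw [smul_eq_mul, mul_comm, Complex.re_add_im]
  rw [← hT, ← apply_mul, h.mod.U_T, hd, add_apply, smul_apply,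
    cfc_fixed h.mod.R_sa h.mod.R_spec hv hre, cfc_fixed h.mod.R_sa h.mod.R_spec hv him,
    opT, cfc_fixed h.mod.R_sa h.mod.R_spec hv continuous_fT']
  have e1 : fU t 1 = 1 := by norm_num [fU, fT]
  simp [e1, fT]
  norm_num

theorem IsCen.U_comm (h : StdData M η R J U) {e : H →L[ℂ] H} (he : IsCen M J η e) (t : ℝ) :
    U t * e = e * U t := by
  have hz : U t * e * U (-t) - e = 0 := by
    refine h.std.2.2 _ (sub_mem (h.mod.U_mem t e he.1) he.1) ?_
    rw [sub_apply, apply_mul, apply_mul, h.mod.U_xi, he.U_fix h t, sub_self]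
  rw [sub_eq_zero] at hz
  calc U t * e = U t * e * (U (-t) * U t) := by rw [U_neg_mul h.mod, mul_one]
    _ = e * U t := by rw [← mul_assoc, hz]

/-! ### Smearing -/

/-- The translate `σ_{2πw} x` applied to `v`. -/
noncomputable def orb (U : ℝ → (H →L[ℂ] H)) (x : H →L[ℂ] H) (w : ℝ) (v : H) : H :=
  U (2 * Real.pi * w) (x (U (-(2 * Real.pi * w)) v))

theorem continuous_orb (h : Modular M η R J U) (x : H →L[ℂ] H) (v : H) :
    Continuous fun w => orb U x w v := by
  rw [continuous_iff_continuousAt]
  intro w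
  obtain ⟨g, hg⟩ : ∃ g : ℝ → H, g = fun s => x (U (-(2 * Real.pi * s)) v) := ⟨_, rfl⟩
  have hgc : Continuous g := by
    rw [hg]
    exact x.continuous.comp ((h.U_cont v).comp (by fun_prop))
  have heq : (fun s => orb U x s v) = fun s =>
      U (2 * Real.pi * s) (g w) + U (2 * Real.pi * s) (g s - g w) := by
    funext s
    rw [map_sub, add_sub_cancel, hg, orb]
  rw [ContinuousAt, heq]
  have h1 : Tendsto (fun s => U (2 * Real.pi * s) (g w)) (𝓝 w)
      (𝓝 (U (2 * Real.pi * w) (g w))) := ((h.U_cont (g w)).comp (by fun_prop)).tendsto w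
  have h2 : Tendsto (fun s => U (2 * Real.pi * s) (g s - g w)) (𝓝 w) (𝓝 0) := by
    refine squeeze_zero_norm (fun s => (norm_U_apply h _ _).le) ?_
    simpa using ((hgc.tendsto w).sub_const (g w)).norm
  have := h1.add h2
  simpa [orb, hg] using this

theorem norm_orb_le (h : Modular M η R J U) (x : H →L[ℂ] H) (w : ℝ) (v : H) :
    ‖orb U x w v‖ ≤ ‖x‖ * ‖v‖ := by
  rw [orb, norm_U_apply h]
  exact (x.le_opNorm _).trans_eq (by rw [norm_U_apply h])

theorem integrable_smear (h : Modular M η R J U) (x : H →L[ℂ] H) {k : ℝ → ℂ} (hkc : Continuous k)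
    (hk : Integrable k) (v : H) : Integrable fun w => k w • orb U x w v :=
  (hk.norm.mul_const (‖x‖ * ‖v‖)).mono' ((hkc.smul (continuous_orb h x v)).aestronglyMeasurable)
    (Eventually.of_forall fun w => by
      rw [norm_smul]; exact mul_le_mul_of_nonneg_left (norm_orb_le h x w v) (norm_nonneg _))

/-- `∫ k(w) σ_{2πw}(x) dw`. -/
noncomputable def smear (h : Modular M η R J U) (x : H →L[ℂ] H) {k : ℝ → ℂ} (hkc : Continuous k)
    (hk : Integrable k) : H →L[ℂ] H :=
  LinearMap.mkContinuous
    { toFun := fun v => ∫ w, k w • orb U x w v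
      map_add' := fun u v => by
        rw [← integral_add (integrable_smear h x hkc hk u) (integrable_smear h x hkc hk v)]
        exact integral_congr_ae (Eventually.of_forall fun w => by simp [orb, smul_add])
      map_smul' := fun c v => by
        rw [RingHom.id_apply, ← integral_smul]
        exact integral_congr_ae (Eventually.of_forall fun w => by
          simp [orb, smul_comm c (k w)]) }
    ((∫ w, ‖k w‖) * ‖x‖) fun v => by
      refine (norm_integral_le_integral_norm _).trans ?_
      rw [mul_assoc, ← integral_mul_const]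
      refine integral_mono (integrable_smear h x hkc hk v).norm (hk.norm.mul_const _) fun w => ?_
      simp only [norm_smul]
      exact mul_le_mul_of_nonneg_left (norm_orb_le h x w v) (norm_nonneg _)

theorem smear_apply (h : Modular M η R J U) (x : H →L[ℂ] H) {k : ℝ → ℂ} (hkc : Continuous k)
    (hk : Integrable k) (v : H) : smear h x hkc hk v = ∫ w, k w • orb U x w v := rfl

theorem norm_smear_le (h : Modular M η R J U) (x : H →L[ℂ] H) {k : ℝ → ℂ} (hkc : Continuous k)
    (hk : Integrable k) : ‖smear h x hkc hk‖ ≤ (∫ w, ‖k w‖) * ‖x‖ :=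
  LinearMap.mkContinuous_norm_le _
    (mul_nonneg (integral_nonneg fun _ => norm_nonneg _) (norm_nonneg _)) _

/-- Whatever commutes with all translates of `x` commutes with the smearing. -/
theorem smear_commute (h : Modular M η R J U) (x : H →L[ℂ] H) {k : ℝ → ℂ} (hkc : Continuous k)
    (hk : Integrable k) {a b : H →L[ℂ] H}
    (hab : ∀ t v, a (U t (x (U (-t) v))) = U t (x (U (-t) (b v)))) :
    a * smear h x hkc hk = smear h x hkc hk * b := by
  ext v
  rw [apply_mul, apply_mul, smear_apply, smear_apply,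
    ← a.integral_comp_comm (integrable_smear h x hkc hk v)]
  exact integral_congr_ae (Eventually.of_forall fun w => by simp [orb, hab])

theorem smear_mem (h : Modular M η R J U) {x : H →L[ℂ] H} (hx : x ∈ M) {k : ℝ → ℂ}
    (hkc : Continuous k) (hk : Integrable k) : smear h x hkc hk ∈ M :=
  mem_iff_comm.2 fun _ hb => smear_commute h x hkc hk fun t v =>
    commute_apply hb (h.U_mem t x hx) v

/-- The smearing acts on `η` as the Fourier transform of the kernel at `log Δ`. -/
theorem smear_eta (h : Modular M η R J U) (x : H →L[ℂ] H) {k : ℝ → ℂ} (hkc : Continuous k)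
    (hk : Integrable k) {b : ℝ → ℝ} (hb : Continuous b) (hbc : HasCompactSupport b)
    (hkb : ∀ l : ℝ, ∫ w, k w * Complex.exp (((2 * Real.pi * w * l : ℝ) : ℂ) * Complex.I) = b l) :
    smear h x hkc hk η = cfc (cut b) R (x η) := by
  obtain ⟨f, hfdef⟩ : ∃ f : ℝ → ℂ → ℂ, f = fun w z => k w * fU (2 * Real.pi * w) z.re := ⟨_, rfl⟩
  have hfc : Continuous (Function.uncurry f) := by
    rw [hfdef]
    exact (hkc.comp continuous_fst).mul
      (continuous_fU.comp (f := fun p : ℝ × ℂ => (2 * Real.pi * p.1, p.2.re)) (by fun_prop))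
  have hfU : ∀ w : ℝ, cfc (f w) R = k w • (U (2 * Real.pi * w) * opT R) := fun w => by
    have hc : Continuous fun z : ℂ => fU (2 * Real.pi * w) z.re :=
      continuous_fU.comp (f := fun z : ℂ => (2 * Real.pi * w, z.re)) (by fun_prop)
    rw [h.U_T, ← cfc_smul (k w) _ R hc.continuousOn, hfdef]
    rfl
  have hspec : ∀ z ∈ spectrum ℂ R, ∀ w, ‖f w z‖ ≤ ‖k w‖ * 2 := by
    intro z _ w
    rw [hfdef, norm_mul, norm_fU_le]
    refine mul_le_mul_of_nonneg_left ?_ (norm_nonneg _)
    refine (Real.sqrt_le_sqrt (show z.re * (2 - z.re) ≤ 1 by nlinarith [sq_nonneg (z.re - 1)])).trans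
      (by rw [Real.sqrt_one]; norm_num)
  have hint : cfc (fun z => ∫ w, f w z) R = ∫ w, cfc (f w) R :=
    cfc_integral f (fun w => ‖k w‖ * 2) R hfc.continuousOn
      (Eventually.of_forall fun w z hz => hspec z hz w) (hk.norm.mul_const 2).hasFiniteIntegral
      h.R_sa.isStarNormal
  have hpt : (fun z : ℂ => ∫ w, f w z) = fun z : ℂ => ((fT z.re * cut b z.re : ℝ) : ℂ) := by
    funext z
    have e := hkb (lg z.re)
    calc ∫ w, f w z = ∫ w, (fT z.re : ℂ) *
          (k w * Complex.exp (((2 * Real.pi * w * lg z.re : ℝ) : ℂ) * Complex.I)) := by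
          refine integral_congr_ae (Eventually.of_forall fun w => ?_)
          simp only [hfdef, fU, lg]
          ring
      _ = _ := by rw [integral_const_mul, e, fT_mul_cut]; push_cast; ring
  have hreal : cfc (fun z : ℂ => ∫ w, f w z) R = opT R * cfc (cut b) R := by
    rw [hpt, ← cfc_real_eq_complex (fun r => fT r * cut b r) h.R_sa, opT,
      cfc_mul fT (cut b) R continuous_fT'.continuousOn (continuous_cut hb hbc).continuousOn]
  refine sub_eq_zero.1 (opT_injective h ?_)
  rw [map_sub, sub_eq_zero, ← apply_mul (opT R) (cfc (cut b) R), ← hreal, hint, smear_apply,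
    ← (opT R).integral_comp_comm (integrable_smear h x hkc hk η)]
  have hInt : Integrable fun w => cfc (f w) R :=
    integrable_cfc f (fun w => ‖k w‖ * 2) R hfc.continuousOn
      (Eventually.of_forall fun w z hz => hspec z hz w) (hk.norm.mul_const 2).hasFiniteIntegral
      h.R_sa.isStarNormal
  rw [ContinuousLinearMap.integral_apply hInt]
  refine integral_congr_ae (Eventually.of_forall fun w => ?_)
  simp only [hfU, smul_apply, apply_mul, map_smul, orb]
  rw [h.U_xi, U_opT h]

theorem smear_corner (h : Modular M η R J U) (x : H →L[ℂ] H) {k : ℝ → ℂ} (hkc : Continuous k)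
    (hk : Integrable k) {e : H →L[ℂ] H} (he : ∀ t, U t * e = e * U t) :
    (e * x = x → e * smear h x hkc hk = smear h x hkc hk) ∧
      (x * e = x → smear h x hkc hk * e = smear h x hkc hk) := by
  refine ⟨fun hex => ?_, fun hxe => ?_⟩
  · have hab : ∀ t v, e (U t (x (U (-t) v))) = U t (x (U (-t) ((1 : H →L[ℂ] H) v))) := fun t v => by
      rw [one_apply_eq_self, ← apply_mul e (U t), ← he t, apply_mul, ← apply_mul e x, hex]
    rw [smear_commute h x hkc hk hab, mul_one]
  · have hab : ∀ t v, (1 : H →L[ℂ] H) (U t (x (U (-t) v))) = U t (x (U (-t) (e v))) := fun t v => by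
      rw [one_apply_eq_self, ← apply_mul (U (-t)) e, he (-t), apply_mul, ← apply_mul x e, hxe]
    rw [← smear_commute h x hkc hk hab, one_mul]

/-- Smoothing by `b(log Δ)`. -/
theorem exists_smear (h : Modular M η R J U) {x : H →L[ℂ] H} (hx : x ∈ M) {b : ℝ → ℝ}
    (hb : ContDiff ℝ 2 b) (hbc : HasCompactSupport b) :
    ∃ y ∈ M, y η = cfc (cut b) R (x η) ∧
      ‖y‖ ≤ Real.pi * ((∫ l, ‖(b l : ℂ)‖) + ∫ l, ‖iteratedDeriv 2 (fun l => (b l : ℂ)) l‖) * ‖x‖ ∧
      (∀ e : H →L[ℂ] H, (∀ t, U t * e = e * U t) →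
        (e * x = x → e * y = y) ∧ (x * e = x → y * e = y)) ∧
      ((∀ t, U t * x = x * U t) → y = (b 0 : ℂ) • x) := by
  have hg : ContDiff ℝ 2 fun l => (b l : ℂ) := Complex.ofRealCLM.contDiff.comp hb
  have hgc : HasCompactSupport fun l => (b l : ℂ) := hbc.comp_left Complex.ofReal_zero
  obtain ⟨hkc, hk, hkn, hkb⟩ := fourier_kernel hg hgc
  refine ⟨smear h x hkc hk, smear_mem h hx hkc hk, smear_eta h x hkc hk hb.continuous hbc hkb,
    (norm_smear_le h x hkc hk).trans (mul_le_mul_of_nonneg_right hkn (norm_nonneg _)),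
    fun e he => smear_corner h x hkc hk he, fun hxU => ?_⟩
  ext v
  have e0 := hkb 0
  simp only [mul_zero, Complex.ofReal_zero, zero_mul, Complex.exp_zero, mul_one] at e0
  rw [smul_apply, smear_apply, ← e0, ← integral_smul_const]
  refine integral_congr_ae (Eventually.of_forall fun w => ?_)
  simp only [orb]
  rw [← apply_mul (U _) x, hxU, apply_mul, ← apply_mul (U (2 * Real.pi * w)),
    ← h.U_add, add_neg_cancel, h.U_zero, one_apply_eq_self]

end Vale.Agent.P132.TypeThree
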