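import Vale.Agent.P132.Fixed
import Vale.Agent.P132.TypeThree.Defs
import Vale.Agent.P132.Tomita.Graph

/-!
P132: `FixedSpec` reduced to projections commuting with `ξ`, and modular data for every standard
vector.
-/

open scoped InnerProductSpace
open Vale.Agent.P132.Tomita (Modular)

namespace VP132

open Fixed

variable {H : Type} [NormedAddCommGroup H] [InnerProductSpace ℂ H] [CompleteSpace H]
variable {M : VonNeumannAlgebra H} {ξ : H} {R : H →L[ℂ] H} {J : H ≃ₗᵢ⋆[ℂ] H}
  {U : ℝ → H →L[ℂ] H}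

open Vale.Agent.P132.TypeThree (IsCen)

/-- No projection other than `0` and `1` commutes with `ξ` and has a modulus. -/
def ProjSpec (M : VonNeumannAlgebra H) (ξ : H) (J : H ≃ₗᵢ⋆[ℂ] H) : Prop :=
  ∀ p, IsCen M J ξ p → Fixed.Comm M ξ J p → p = 0 ∨ p = 1

theorem scalar_of_projSpec (hm : Modular M ξ R J U) (hproj : ProjSpec M ξ J) {x : H →L[ℂ] H}
    (hx : Good M ξ J x) (hxs : IsSelfAdjoint x) : ∃ c : ℂ, x = c • 1 := by
  by_cases hsub : (spectrum ℝ x).Subsingleton
  · obtain ⟨c, hc⟩ : ∃ c, ∀ r ∈ spectrum ℝ x, r = c := by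
      rcases hsub.eq_empty_or_singleton with h | ⟨c, h⟩
      · exact ⟨0, by simp [h]⟩
      · exact ⟨c, by simp [h]⟩
    refine ⟨(c : ℂ), ?_⟩
    calc x = cfc (fun r : ℝ => r) x := (cfc_id' ℝ x).symm
      _ = cfc (fun _ : ℝ => c) x := cfc_congr hc
      _ = algebraMap ℝ _ c := cfc_const c x
      _ = (c : ℂ) • 1 := by rw [Algebra.algebraMap_eq_smul_one, Complex.coe_smul]
  · obtain ⟨s, hs1, s', hs2, hlt⟩ : ∃ s ∈ spectrum ℝ x, ∃ s' ∈ spectrum ℝ x, s < s' := by
      by_contra hn
      push Not at hn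
      exact hsub fun a ha b hb => le_antisymm (hn b hb a ha) (hn a ha b hb)
    obtain ⟨p, hp, hps, hpp, hp0, hp1⟩ := exists_good_proj hm hx hxs hs1 hs2 hlt
    have hfix := hp.fix
    rw [hps] at hfix
    exact ((hproj p ⟨hp.mem, ⟨hpp, hps⟩, hfix⟩ hp.comm).elim hp0 hp1).elim

/-- Fixed elements with moduli are scalars as soon as this holds for projections. -/
theorem fixedSpec_of_proj (hm : Modular M ξ R J U) (hrow : RowSpec M ξ J)
    (hproj : ProjSpec M ξ J) : FixedSpec M ξ R J := by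
  intro a ha ha' hR hR'
  have hG : Good M ξ J a := ⟨ha.1, fix_of_R hm ha.1 hR hR',
    comm_of_hasRowMod (hrow a ha), comm_of_hasRowMod (hrow _ ha')⟩
  set y : H →L[ℂ] H := Complex.I • (a + (-1 : ℂ) • star a) with hy
  have hys : IsSelfAdjoint y := by
    show star y = y
    rw [hy, star_smul, star_add, star_smul, star_star]
    simp only [Complex.star_def, Complex.conj_I, map_neg, map_one]
    module
  obtain ⟨c, hc⟩ := scalar_of_projSpec hm hproj (hG.add (hG.star_good hm))
    (IsSelfAdjoint.add_star_self a)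
  obtain ⟨d, hd⟩ := scalar_of_projSpec hm hproj
    ((hG.add ((hG.star_good hm).smul (-1))).smul Complex.I) hys
  refine ⟨(c - Complex.I * d) / 2, ?_⟩
  have e : a = (1 / 2 : ℂ) • ((a + star a) - Complex.I • y) := by
    rw [hy, smul_smul, Complex.I_mul_I]
    module
  rw [e, hc, show y = d • 1 from hd]
  module

/-- Every standard vector has modular data. -/
theorem exists_stdData (hs : IsStandardVector H M ξ) :
    ∃ R J U, Vale.Agent.P132.TypeThree.StdData M ξ R J U := by
  obtain ⟨R, J, U, hm, hg⟩ :=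
    Vale.Agent.P132.Tomita.exists_modular_graph M ξ ⟨hs.2.1, hs.2.2⟩ hs.1
  exact ⟨R, J, U, hs, hm, hg⟩

end VP132
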