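import Vale.Agent.P132.TypeThree.Smoothing

/-!
P132: band elements. `x` lies in the band `(p, d)` when the vectors `Δ^(n/2) x η` are `y n η` for
`y n` in `M` of norm at most `C exp (n p / 2 + |n| d)`. Products add the bands, and an element of
the band `(0, d)` nearly commutes with `η`, relative to its own size.
-/

open scoped InnerProductSpace ComplexConjugate Topology
open MeasureTheory Filter

namespace Vale.Agent.P132.TypeThree

open Vale.Agent.P132.Tomita Vale.Agent.P104.Continuous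

variable {H : Type} [NormedAddCommGroup H] [InnerProductSpace ℂ H] [CompleteSpace H]
variable {M : VonNeumannAlgebra H} {η : H} {R : H →L[ℂ] H} {J : H ≃ₗᵢ⋆[ℂ] H}
  {U : ℝ → (H →L[ℂ] H)}

/-- `x` is in the band `(p, d)`. -/
def IsBand (M : VonNeumannAlgebra H) (J : H ≃ₗᵢ⋆[ℂ] H) (η : H) (p d : ℝ) (x : H →L[ℂ] H) : Prop :=
  ∃ y : ℤ → (H →L[ℂ] H), y 0 = x ∧ (∀ n, y n ∈ M) ∧ (∀ n, J (star (y n) η) = y (n + 1) η) ∧
    ∃ C : ℝ, ∀ n : ℤ, ‖y n‖ ≤ C * Real.exp ((n : ℝ) * p / 2 + |(n : ℝ)| * d)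

theorem IsBand.mem {p d : ℝ} {x : H →L[ℂ] H} (h : IsBand M J η p d x) : x ∈ M := by
  obtain ⟨y, rfl, hy, -⟩ := h
  exact hy 0

theorem IsBand.mul (h : Modular M η R J U) {p q c d : ℝ} {a b : H →L[ℂ] H}
    (ha : IsBand M J η p c a) (hb : IsBand M J η q d b) :
    IsBand M J η (p + q) (c + d) (a * b) := by
  obtain ⟨y, rfl, hy, hys, C, hC⟩ := ha
  obtain ⟨z, rfl, hz, hzs, D, hD⟩ := hb
  refine ⟨fun n => y n * z n, rfl, fun n => mul_mem (hy n) (hz n), fun n => ?_, C * D, fun n => ?_⟩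
  · have e := commute_apply (h.conj_mem _ (star_mem (hz n))) (hy (n + 1)) η
    rw [conjBy_apply, conjBy_apply, h.J_xi, hzs, ← hys, h.J_J] at e
    rw [star_mul, apply_mul, e, apply_mul]
  · refine (norm_mul_le _ _).trans
      ((mul_le_mul (hC n) (hD n) (norm_nonneg _) ((norm_nonneg _).trans (hC n))).trans_eq ?_)
    rw [mul_mul_mul_comm, ← Real.exp_add]
    congr 2
    ring

theorem norm_conj_U_le (h : Modular M η R J U) (t : ℝ) (x : H →L[ℂ] H) :
    ‖U t * x * U (-t)‖ ≤ ‖x‖ := by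
  refine ContinuousLinearMap.opNorm_le_bound _ (norm_nonneg _) fun v => ?_
  rw [apply_mul, apply_mul, norm_U_apply h]
  exact (x.le_opNorm _).trans_eq (by rw [norm_U_apply h])

theorem IsBand.conj_U (h : Modular M η R J U) {p d : ℝ} {x : H →L[ℂ] H} (hx : IsBand M J η p d x)
    (t : ℝ) : IsBand M J η p d (U t * x * U (-t)) := by
  obtain ⟨y, rfl, hy, hys, C, hC⟩ := hx
  refine ⟨fun n => U t * y n * U (-t), rfl, fun n => h.U_mem t _ (hy n), fun n => ?_, C,
    fun n => (norm_conj_U_le h t _).trans (hC n)⟩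
  have e : star (U t * y n * U (-t)) = U t * star (y n) * U (-t) := by
    rw [star_mul, star_mul, h.U_star, h.U_star, neg_neg, mul_assoc]
  rw [e, apply_mul, apply_mul, apply_mul, apply_mul, h.U_xi, h.U_J, hys]

/-- A log-convex sequence with exponential growth `q` grows by at most `q` at each step. -/
theorem le_of_logConvex {N : ℕ → ℝ} (h0 : ∀ n, 0 ≤ N n)
    (hlc : ∀ n, N (n + 1) ^ 2 ≤ N n * N (n + 2)) {C q : ℝ} (hq : 0 < q)
    (hC : ∀ n, N n ≤ C * q ^ n) : N 1 ≤ q * N 0 := by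
  by_contra hlt
  rcases (h0 0).eq_or_lt with hz | hpos
  · have h1 : ∀ n, 0 < N (n + 1) → 0 < N n := by
      intro n hn
      refine (h0 n).lt_of_ne fun e => ?_
      have := hlc n
      rw [← e, zero_mul] at this
      nlinarith
    exact absurd (h1 0 (by rw [← hz, mul_zero] at hlt; exact not_le.1 hlt)) (by rw [← hz]; simp)
  · set r := N 1 / N 0 with hr
    have hqr : q < r := by rw [hr, lt_div_iff₀ hpos]; linarith
    have hr0 : 0 < r := hq.trans hqr
    have hgr : ∀ n, r ^ n * N 0 ≤ N n ∧ r * N n ≤ N (n + 1) := by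
      intro n
      induction n with
      | zero => refine ⟨by simp, ?_⟩; rw [hr, div_mul_cancel₀ _ hpos.ne']
      | succ n ih =>
        have h1 : r ^ (n + 1) * N 0 ≤ N (n + 1) := by
          rw [pow_succ, mul_comm (r ^ n) r, mul_assoc]
          exact (mul_le_mul_of_nonneg_left ih.1 hr0.le).trans ih.2
        have hp1 : 0 < N (n + 1) := lt_of_lt_of_le (by positivity) h1
        refine ⟨h1, le_of_mul_le_mul_left ?_ hp1⟩
        nlinarith [hlc n, mul_le_mul_of_nonneg_right ih.2 (h0 (n + 2))]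
    obtain ⟨n, hn⟩ := pow_unbounded_of_one_lt (C / N 0) (show 1 < r / q by rwa [one_lt_div hq])
    have := (hgr n).1.trans (hC n)
    rw [div_pow, div_lt_div_iff₀ hpos (by positivity)] at hn
    linarith

/-- An element of the band `(0, d)` nearly commutes with `η`. -/
theorem IsBand.norm_cm_sq_le (h : StdData M η R J U) {d : ℝ} {x : H →L[ℂ] H}
    (hx : IsBand M J η 0 d x) :
    ‖cm J η x‖ ^ 2 ≤ (Real.exp (2 * d) - 2 * Real.exp (-d) + 1) * ‖x η‖ ^ 2 := by
  obtain ⟨y, rfl, hy, hys, C, hC⟩ := hx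
  have shift : ∀ m k, ⟪y (m + 1) η, y k η⟫_ℂ = ⟪y m η, y (k + 1) η⟫_ℂ := by
    intro m k
    rw [← hys m, ← hys k, ← inner_conj_symm (J (star (y m) η)), form_conj h.mod (hy k) (hy m)]
  obtain ⟨N, hN⟩ : ∃ N : ℤ → ℝ, N = fun n => ‖y n η‖ := ⟨_, rfl⟩
  have hlc : ∀ n, N (n + 1) ^ 2 ≤ N n * N (n + 2) := by
    intro n
    have e := shift n (n + 1)
    rw [show n + 1 + 1 = n + 2 by ring, inner_self_eq_norm_sq_to_K] at e
    have e2 := norm_inner_le_norm (𝕜 := ℂ) (y n η) (y (n + 2) η)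
    rw [← e] at e2
    simpa [hN, norm_pow] using e2
  have hgrow : ∀ n : ℤ, N n ≤ C * ‖η‖ * Real.exp (|(n : ℝ)| * d) := by
    intro n
    have := (y n).le_of_opNorm_le (hC n) η
    simp only [mul_zero, zero_div, zero_add] at this
    rw [hN]; exact this.trans_eq (by ring)
  have hN0 : ∀ n, 0 ≤ N n := fun n => by rw [hN]; exact norm_nonneg _
  have hup : N 1 ≤ Real.exp d * N 0 := by
    have := le_of_logConvex (N := fun n : ℕ => N (n : ℤ)) (fun n => hN0 _)
      (fun n => by push_cast; exact hlc n) (C := C * ‖η‖) (Real.exp_pos d) fun n => by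
        refine (hgrow n).trans_eq ?_
        rw [← Real.exp_nat_mul]; simp
    simpa using this
  have hdown : N (-1) ≤ Real.exp d * N 0 := by
    have := le_of_logConvex (N := fun n : ℕ => N (-(n : ℤ))) (fun n => hN0 _)
      (fun n => by
        have := hlc (-((n : ℤ) + 2))
        rw [show -((n : ℤ) + 2) + 1 = -((n + 1 : ℕ) : ℤ) by push_cast; ring,
          show -((n : ℤ) + 2) + 2 = -(n : ℤ) by ring, mul_comm] at this
        rwa [show ((n + 2 : ℕ) : ℤ) = (n : ℤ) + 2 by norm_num])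
      (C := C * ‖η‖) (Real.exp_pos d) fun n => by
        refine (hgrow _).trans_eq ?_
        rw [← Real.exp_nat_mul]; simp
    simpa using this
  -- the middle value
  set A := (⟪y (-1) η, J (star (y (-1)) η)⟫_ℂ).re with hA
  set B := (⟪y 0 η, J (star (y 0) η)⟫_ℂ).re with hB
  have hmid : ⟪y (-1) η, J (star (y 0) η)⟫_ℂ = ((N 0 ^ 2 : ℝ) : ℂ) := by
    rw [hys, ← shift (-1) 0, show (-1 : ℤ) + 1 = 0 by norm_num, inner_self_eq_norm_sq_to_K, hN]
    simp
  have hCS : (N 0 ^ 2) ^ 2 ≤ A * B := by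
    have hq : ∀ t : ℝ, 0 ≤ B * (t * t) + 2 * N 0 ^ 2 * t + A := by
      intro t
      have h0 := ((isConeVec_self h.mod).2 (y (-1) + (t : ℂ) • y 0)
        (add_mem (hy _) (smul_mem_vn _ (hy _)))).1
      have hmid' : ⟪y 0 η, J (star (y (-1)) η)⟫_ℂ = ((N 0 ^ 2 : ℝ) : ℂ) := by
        rw [← form_conj h.mod (hy (-1)) (hy 0), hmid, Complex.conj_ofReal]
      simp only [star_add, star_smul, add_apply, smul_apply, map_add,
        LinearIsometryEquiv.map_smulₛₗ, inner_add_left, inner_add_right, inner_smul_left,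
        inner_smul_right, Complex.star_def, Complex.conj_ofReal, hmid, hmid', Complex.add_re,
        Complex.re_ofReal_mul, Complex.ofReal_re] at h0
      linarith
    have := discrim_le_zero hq
    rw [discrim] at this
    nlinarith
  have hAle : A ≤ N (-1) * N 0 := by
    rw [hA, hys, show (-1 : ℤ) + 1 = 0 by norm_num, hN]
    exact (Complex.re_le_norm _).trans (norm_inner_le_norm _ _)
  have hcm : ‖cm J η (y 0)‖ ^ 2 = N 0 ^ 2 - 2 * B + N 1 ^ 2 := by
    rw [cm, hB, hys, zero_add, norm_sub_sq (𝕜 := ℂ), hN]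
    rfl
  rw [hcm, show ‖y 0 η‖ = N 0 by rw [hN]]
  have hB0 : 0 ≤ B := ((isConeVec_self h.mod).2 _ (hy 0)).1
  have hBlow : Real.exp (-d) * N 0 ^ 2 ≤ B := by
    rcases (hN0 0).eq_or_lt with hz | hpos
    · rw [← hz]; simpa using hB0
    · rw [Real.exp_neg, inv_mul_le_iff₀ (Real.exp_pos d)]
      refine le_of_mul_le_mul_left ?_ (show 0 < N 0 ^ 2 by positivity)
      calc N 0 ^ 2 * N 0 ^ 2 = (N 0 ^ 2) ^ 2 := by ring
        _ ≤ A * B := hCS
        _ ≤ Real.exp d * N 0 * N 0 * B :=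
          mul_le_mul_of_nonneg_right (hAle.trans (mul_le_mul_of_nonneg_right hdown (hN0 0))) hB0
        _ = N 0 ^ 2 * (Real.exp d * B) := by ring
  have h2 : N 1 ^ 2 ≤ Real.exp (2 * d) * N 0 ^ 2 := by
    rw [show 2 * d = d + d by ring, Real.exp_add]
    calc N 1 ^ 2 ≤ (Real.exp d * N 0) ^ 2 := pow_le_pow_left₀ (hN0 1) hup 2
      _ = Real.exp d * Real.exp d * N 0 ^ 2 := by ring
  nlinarith

/-! ### Band elements by smoothing -/

/-- A bump at `p`. -/
noncomputable def bump (p d : ℝ) (hd : 0 < d) : ContDiffBump p :=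
  ⟨d / 2, d, by linarith, by linarith⟩

/-- `(2 - R) b(log Δ) = T b'(log Δ)` when `b' l = b l * exp (l / 2)`. -/
theorem two_sub_cut (h : Modular M η R J U) {b b' : ℝ → ℝ} (hb : Continuous b)
    (hbc : HasCompactSupport b) (hb' : Continuous b') (hbc' : HasCompactSupport b')
    (he : ∀ l, b' l = b l * Real.exp (l / 2)) (v : H) :
    (2 : ℂ) • cfc (cut b) R v - R (cfc (cut b) R v) = opT R (cfc (cut b') R v) := by
  have hpt : (fun r => fT r * cut b' r) = fun r => (2 - r) * cut b r := by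
    funext r
    by_cases hr : 0 < r ∧ r < 2
    · have e1 : Real.exp (lg r / 2) = Real.sqrt ((2 - r) / r) := by
        rw [Real.exp_half, exp_lg hr.1 hr.2]
      have e2 : fT r * Real.exp (lg r / 2) = 2 - r := by
        rw [e1, fT, ← Real.sqrt_mul (by nlinarith : (0 : ℝ) ≤ r * (2 - r)),
          show r * (2 - r) * ((2 - r) / r) = (2 - r) ^ 2 by field_simp [hr.1.ne'],
          Real.sqrt_sq (by linarith)]
      simp only [cut, if_pos hr, he]
      linear_combination (b (lg r)) * e2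
    · simp [cut, hr]
  rw [← apply_mul (opT R), opT,
    ← cfc_mul fT (cut b') R continuous_fT'.continuousOn (continuous_cut hb' hbc').continuousOn,
    hpt, cfc_mul (fun r : ℝ => 2 - r) (cut b) R (by fun_prop) (continuous_cut hb hbc).continuousOn,
    cfc_sub (fun _ : ℝ => (2 : ℝ)) (fun r => r) R, cfc_const (2 : ℝ) R h.R_sa,
    cfc_id' ℝ R h.R_sa, apply_mul, sub_apply, map_ofNat]
  simp [show (2 : H →L[ℂ] H) = 1 + 1 by norm_num, two_smul]

/-- Smoothing into the band `(p, d)`. -/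
theorem exists_band_of (h : Modular M η R J U) {x : H →L[ℂ] H} (hx : x ∈ M) (p : ℝ) {d : ℝ}
    (hd : 0 < d) :
    ∃ y, IsBand M J η p d y ∧ y η = cfc (cut (bump p d hd)) R (x η) ∧
      (∀ e : H →L[ℂ] H, (∀ t, U t * e = e * U t) →
        (e * x = x → e * y = y) ∧ (x * e = x → y * e = y)) := by
  obtain ⟨β, hβ⟩ : ∃ β : ℝ → ℝ, β = ⇑(bump p d hd) := ⟨_, rfl⟩
  have hb2 : ContDiff ℝ 2 β := hβ ▸ (bump p d hd).contDiff
  have hbc : HasCompactSupport β := hβ ▸ (bump p d hd).hasCompactSupport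
  have hsupp : tsupport β ⊆ Metric.closedBall p d := by
    rw [hβ, ContDiffBump.tsupport_eq]; rfl
  obtain ⟨C, hC0, hC⟩ := tilt_bound hb2 hd.le hsupp
  obtain ⟨b, hb⟩ : ∃ b : ℤ → ℝ → ℝ, b = fun (n : ℤ) l => β l * Real.exp ((n : ℝ) / 2 * l) := ⟨_, rfl⟩
  have hbn : ∀ n, ContDiff ℝ 2 (b n) ∧ HasCompactSupport (b n) := fun n => by
    rw [hb]; exact ⟨hb2.mul (by fun_prop), hbc.mul_right⟩
  choose y hyM hyη hyn hyc hyfix using fun n => exists_smear h hx (hbn n).1 (hbn n).2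
  have hb0 : b 0 = ⇑(bump p d hd) := by rw [hb, ← hβ]; simp
  refine ⟨y 0, ⟨y, rfl, hyM, fun n => ?_, Real.pi * C * (1 + 2 / d ^ 2) * ‖x‖, fun n => ?_⟩,
    by rw [hyη, hb0], fun e he => hyc 0 e he⟩
  · refine sub_eq_zero.1 (opT_injective h ?_)
    rw [map_sub, sub_eq_zero, ← graph_one h (hyM n), hyη, hyη]
    refine two_sub_cut h (hbn _).1.continuous (hbn _).2 (hbn _).1.continuous (hbn _).2
      (fun l => ?_) _
    rw [hb]
    simp only []
    rw [show ((n + 1 : ℤ) : ℝ) / 2 * l = (n : ℝ) / 2 * l + l / 2 by push_cast; ring, Real.exp_add,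
      mul_assoc]
  · refine (hyn n).trans ?_
    rw [hb]
    calc Real.pi * _ * ‖x‖
        ≤ Real.pi * (C * (1 + ((n : ℝ) / 2) ^ 2)
            * Real.exp ((n : ℝ) / 2 * p + |(n : ℝ) / 2| * d)) * ‖x‖ :=
          mul_le_mul_of_nonneg_right (mul_le_mul_of_nonneg_left (hC _) Real.pi_pos.le) (norm_nonneg _)
      _ ≤ Real.pi * (C * ((1 + 2 / d ^ 2) * Real.exp (d * |(n : ℝ) / 2|))
            * Real.exp ((n : ℝ) / 2 * p + |(n : ℝ) / 2| * d)) * ‖x‖ := by
          gcongr
          exact one_add_sq_le_exp hd _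
      _ = _ := by
          rw [← mul_assoc C, mul_assoc (C * (1 + 2 / d ^ 2)), ← Real.exp_add, abs_div, abs_two,
            show d * (|(n : ℝ)| / 2) + ((n : ℝ) / 2 * p + |(n : ℝ)| / 2 * d)
              = (n : ℝ) * p / 2 + |(n : ℝ)| * d by ring]
          ring

/-- A projection of `M` commuting with the modular group commutes with `η`. -/
theorem isCen_of_U_comm (h : Modular M η R J U) {e : H →L[ℂ] H} (he : e ∈ M)
    (hep : IsStarProjection e) (hU : ∀ t, U t * e = e * U t) : IsCen M J η e := by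
  obtain ⟨β, hβ⟩ : ∃ β : ℝ → ℝ, β = ⇑(bump 0 1 one_pos) := ⟨_, rfl⟩
  have hb2 : ContDiff ℝ 2 β := hβ ▸ (bump 0 1 one_pos).contDiff
  have hbc : HasCompactSupport β := hβ ▸ (bump 0 1 one_pos).hasCompactSupport
  obtain ⟨β', hβ'⟩ : ∃ β' : ℝ → ℝ, β' = fun l => β l * Real.exp (l / 2) := ⟨_, rfl⟩
  have hb2' : ContDiff ℝ 2 β' := hβ' ▸ hb2.mul (by fun_prop)
  have hbc' : HasCompactSupport β' := hβ' ▸ hbc.mul_right
  have h0 : β 0 = 1 := by
    rw [hβ]
    exact (bump 0 1 one_pos).one_of_mem_closedBall (Metric.mem_closedBall_self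
      (show (0 : ℝ) ≤ 1 / 2 by norm_num))
  have h0' : β' 0 = 1 := by rw [hβ']; simp [h0]
  obtain ⟨y, -, hyη, -, -, hyf⟩ := exists_smear h he hb2 hbc
  obtain ⟨z, -, hzη, -, -, hzf⟩ := exists_smear h he hb2' hbc'
  rw [hyf hU, h0] at hyη
  rw [hzf hU, h0'] at hzη
  simp only [Complex.ofReal_one, one_smul] at hyη hzη
  refine ⟨he, hep, sub_eq_zero.1 (opT_injective h ?_)⟩
  rw [map_sub, sub_eq_zero]
  have eg := graph_one h he
  rw [hep.isSelfAdjoint.star_eq] at eg
  have et := two_sub_cut h hb2.continuous hbc hb2'.continuous hbc' (fun l => by rw [hβ']) (e η)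
  rwa [← hyη, ← hzη, eg] at et

end Vale.Agent.P132.TypeThree
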