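import Vale.Agent.P132.TypeThree.Band
import Vale.Agent.P132.Integral

/-!
P132: a vector fixed by the modular group is bounded on some nonzero corner of the centralizer
under any given nonzero projection of the centralizer, with a bound depending only on that
projection. The corner comes from the projection on the closure of `{(a p v, a p ξ) : a ∈ M}`.
-/

open scoped InnerProductSpace ComplexConjugate Topology
open Filter MeasureTheory

namespace Vale.Agent.P132.TypeThree

open Vale.Agent.P132.Tomita Vale.Agent.P104.Continuous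

variable {H : Type} [NormedAddCommGroup H] [InnerProductSpace ℂ H] [CompleteSpace H]
variable {M : VonNeumannAlgebra H} {ξ : H} {R : H →L[ℂ] H} {J : H ≃ₗᵢ⋆[ℂ] H}
  {U : ℝ → (H →L[ℂ] H)}

/-! ### Fixed vectors -/

theorem abs_one_sub_le_lam {r : ℝ} (h0 : 0 < r) (h2 : r < 2) : |1 - r| ≤ |VP132.lam r| := by
  have h2' : (0 : ℝ) < 2 - r := by linarith
  rw [VP132.lam, ← Real.log_div h2'.ne' h0.ne']
  rcases le_total r 1 with h | h
  · have h1 := Real.one_sub_inv_le_log_of_pos (div_pos h2' h0)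
    rw [inv_div] at h1
    have e : 1 - r ≤ 1 - r / (2 - r) := by
      rw [sub_le_sub_iff_left, div_le_iff₀ h2']; nlinarith
    rw [abs_of_nonneg (by linarith : (0 : ℝ) ≤ 1 - r)]
    exact (e.trans h1).trans (le_abs_self _)
  · have h1 := Real.one_sub_inv_le_log_of_pos (div_pos h0 h2')
    rw [inv_div] at h1
    have e : r - 1 ≤ 1 - (2 - r) / r := by
      rw [le_sub_iff_add_le, add_comm, ← le_sub_iff_add_le, div_le_iff₀ h0]; nlinarith
    rw [abs_of_nonpos (by linarith : 1 - r ≤ 0), ← inv_div, Real.log_inv, abs_neg]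
    exact le_trans (by linarith) (le_abs_self _)

/-- A vector fixed by the modular group is fixed by `R`. -/
theorem R_fix_of_U (h : Modular M ξ R J U) {v : H} (hv : ∀ t, U t v = v) : R v = v := by
  have hb : ∀ a : ℝ, 0 < a → ‖R v - v‖ ≤ a * ‖v‖ := by
    intro a ha
    have e0 : VP132.band R 0 a v = v := by
      rw [← VP132.integralSpec h 0 a ha v]
      simp only [hv, integral_smul_const]
      have e1 := VP132.integral_bandKernel_exp ha 0 0
      simp only [mul_zero, Complex.ofReal_zero, zero_mul, Complex.exp_zero, mul_one, sub_zero,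
        zero_div, ne_eq, OfNat.ofNat_ne_zero, not_false_eq_true, zero_pow, neg_zero, Real.exp_zero,
        Complex.ofReal_one] at e1
      rw [e1, one_smul]
    have hc := VP132.continuous_gp ha 0
    have e2 : R v - v = cfc (fun r => (r - 1) * VP132.gp 0 a r) R v := by
      rw [cfc_mul (fun r : ℝ => r - 1) (VP132.gp 0 a) R (by fun_prop) hc.continuousOn,
        cfc_sub (fun r : ℝ => r) (fun _ => (1 : ℝ)) R, cfc_id' ℝ R h.R_sa,
        cfc_const (1 : ℝ) R h.R_sa, map_one, apply_mul]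
      simp only [VP132.band] at e0
      rw [e0, sub_apply, one_apply_eq_self]
    rw [e2]
    refine (ContinuousLinearMap.le_opNorm _ _).trans
      (mul_le_mul_of_nonneg_right ?_ (norm_nonneg _))
    refine norm_cfc_le ha.le fun r _ => ?_
    rw [Real.norm_eq_abs, abs_mul, VP132.gp]
    split_ifs with hr
    · rw [Real.abs_exp, sub_zero, Real.exp_neg, ← div_eq_mul_inv, div_le_iff₀ (Real.exp_pos _)]
      have h1 := abs_one_sub_le_lam hr.1 hr.2
      rw [abs_sub_comm] at h1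
      have h2 := Real.add_one_le_exp ((VP132.lam r / a) ^ 2)
      have h3 : |VP132.lam r| = a * |VP132.lam r / a| := by
        rw [abs_div, abs_of_pos ha]; field_simp
      refine h1.trans (h3.trans_le (mul_le_mul_of_nonneg_left ?_ ha.le))
      nlinarith [sq_abs (VP132.lam r / a), sq_nonneg (|VP132.lam r / a| - 1)]
    · simp [ha.le]
  refine sub_eq_zero.1 (norm_eq_zero.1 (le_antisymm (le_of_forall_pos_le_add fun ε hε => ?_)
    (norm_nonneg _)))
  refine (hb (ε / (‖v‖ + 1)) (by positivity)).trans ?_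
  rw [div_mul_eq_mul_div, div_le_iff₀ (by positivity)]
  nlinarith [norm_nonneg v]

theorem T_fix (h : Modular M ξ R J U) {v : H} (hv : R v = v) : opT R v = v := by
  rw [opT, cfc_fixed h.R_sa h.R_spec hv continuous_fT', fT]
  norm_num

/-- For a fixed vector the left and the right pairing agree. -/
theorem fixed_pairing (h : Modular M ξ R J U) {v : H} (hv : R v = v) {a c : H →L[ℂ] H}
    (ha : a ∈ M) (hc : c ∈ M) : ⟪c ξ, a v⟫_ℂ = ⟪c (J v), a ξ⟫_ℂ := by
  have e1 : ⟪c ξ, a v⟫_ℂ = ⟪(star a * c) ξ, v⟫_ℂ := by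
    rw [apply_mul, ContinuousLinearMap.star_eq_adjoint, ContinuousLinearMap.adjoint_inner_left]
  have e2 : ⟪c (J v), a ξ⟫_ℂ = ⟪J (star (star a * c) ξ), v⟫_ℂ := by
    rw [← ContinuousLinearMap.adjoint_inner_right, ← ContinuousLinearMap.star_eq_adjoint,
      star_mul, star_star, apply_mul]
    conv_lhs => rw [← h.J_J (star c (a ξ))]
    rw [inner_map_map']
  rw [e1, e2]
  have hb : star a * c ∈ M := mul_mem (star_mem ha) hc
  generalize star a * c = b at hb
  have e3 := congrArg (fun w => ⟪w, v⟫_ℂ) (graph_one h hb)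
  simp only [inner_sub_left, inner_smul_left, map_ofNat, inner_proj h.R_sa, hv,
    inner_proj opT_selfAdjoint, T_fix h hv] at e3
  linear_combination e3

/-! ### The doubled space -/

/-- `b ⊕ b`. -/
noncomputable def diag (b : H →L[ℂ] H) : WithLp 2 (H × H) →L[ℂ] WithLp 2 (H × H) :=
  ((WithLp.prodContinuousLinearEquiv 2 ℂ H H).symm : (H × H) →L[ℂ] WithLp 2 (H × H)).comp
    ((b.prodMap b).comp (WithLp.prodContinuousLinearEquiv 2 ℂ H H :
      WithLp 2 (H × H) →L[ℂ] H × H))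

/-- `v ↦ (0, v)`. -/
noncomputable def inr2 : H →L[ℂ] WithLp 2 (H × H) :=
  ((WithLp.prodContinuousLinearEquiv 2 ℂ H H).symm : (H × H) →L[ℂ] WithLp 2 (H × H)).comp
    (ContinuousLinearMap.inr ℂ H H)

omit [CompleteSpace H] in
theorem inr2_apply (v : H) : (inr2 v : WithLp 2 (H × H)) = WithLp.toLp 2 (0, v) := rfl

omit [CompleteSpace H] in
theorem diag_apply (b : H →L[ℂ] H) (x : WithLp 2 (H × H)) :
    diag b x = WithLp.toLp 2 (b x.fst, b x.snd) := rfl

theorem star_diag (b : H →L[ℂ] H) : star (diag b) = diag (star b) := by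
  rw [ContinuousLinearMap.star_eq_adjoint]
  symm
  rw [ContinuousLinearMap.eq_adjoint_iff]
  intro x y
  simp only [diag_apply, WithLp.prod_inner_apply, ContinuousLinearMap.star_eq_adjoint,
    ContinuousLinearMap.adjoint_inner_left]
  rfl

/-- The pairs `(a u, a w)`, `a` in `M`. -/
def pairs (M : VonNeumannAlgebra H) (u w : H) : Submodule ℂ (WithLp 2 (H × H)) where
  carrier := {x | ∃ a ∈ M, WithLp.toLp 2 (a u, a w) = x}
  zero_mem' := ⟨0, zero_mem _, rfl⟩
  add_mem' := by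
    rintro _ _ ⟨a, ha, rfl⟩ ⟨b, hb, rfl⟩
    exact ⟨a + b, add_mem ha hb, rfl⟩
  smul_mem' := by
    rintro c _ ⟨a, ha, rfl⟩
    exact ⟨c • a, smul_mem_vn _ ha, rfl⟩

/-! ### The corner -/

/-- The case of a vector of norm at most one. -/
theorem exists_bounded_corner_aux (hd : StdData M ξ R J U) {p : H →L[ℂ] H} (hp : IsCen M J ξ p)
    {c : ℝ} (hc : 0 < c) (hc' : 4 * c ≤ ‖p ξ‖ ^ 4) {v : H} (hv : ∀ t, U t v = v)
    (hv1 : ‖v‖ ≤ 1) :
    ∃ e, IsCen M J ξ e ∧ e ≠ 0 ∧ p * e = e ∧ ∀ x ∈ M, ‖x (e v)‖ ≤ c⁻¹ * ‖x ξ‖ := by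
  have h := hd.mod
  have hR := R_fix_of_U h hv
  obtain ⟨K, hK⟩ : ∃ K, K = pairs M (p v) (p ξ) := ⟨_, rfl⟩
  obtain ⟨P, hP⟩ : ∃ P, P = cl K := ⟨_, rfl⟩
  have hPp : IsStarProjection P := hP ▸ cl_isProj K
  obtain ⟨A, hA⟩ : ∃ A : H →L[ℂ] H, A = (WithLp.sndL 2 ℂ H H).comp (P.comp inr2) := ⟨_, rfl⟩
  obtain ⟨B, hB⟩ : ∃ B : H →L[ℂ] H, B = (WithLp.fstL 2 ℂ H H).comp (P.comp inr2) := ⟨_, rfl⟩
  have hAapp : ∀ w, A w = (P (inr2 w)).snd := fun w => by rw [hA]; rfl
  have hBapp : ∀ w, B w = (P (inr2 w)).fst := fun w => by rw [hB]; rfl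
  have hinner : ∀ u w, ⟪inr2 u, (w : WithLp 2 (H × H))⟫_ℂ = ⟪u, w.snd⟫_ℂ := fun u w => by
    simp [inr2_apply, WithLp.prod_inner_apply]
  have hn2 : ∀ u : H, ‖(inr2 u : WithLp 2 (H × H))‖ = ‖u‖ := fun u => by
    have e := WithLp.prod_norm_sq_eq_of_L2 (inr2 u : WithLp 2 (H × H))
    simp only [inr2_apply, WithLp.toLp_fst, WithLp.toLp_snd, norm_zero] at e
    rw [inr2_apply]
    exact (sq_eq_sq₀ (norm_nonneg _) (norm_nonneg _)).1 (by simpa using e)
  have hAinner : ∀ u w, ⟪u, A w⟫_ℂ = ⟪P (inr2 u), P (inr2 w)⟫_ℂ := fun u w => by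
    rw [hAapp, ← hinner, inner_proj hPp.isSelfAdjoint, ← apply_mul P P, hPp.isIdempotentElem.eq]
  have hAsa : IsSelfAdjoint A := by
    rw [IsSelfAdjoint, ContinuousLinearMap.star_eq_adjoint]
    symm
    rw [ContinuousLinearMap.eq_adjoint_iff]
    intro u w
    rw [← inner_conj_symm (A u) w, hAinner w u, inner_conj_symm, ← hAinner u w]
  have hApos : 0 ≤ A := by
    rw [ContinuousLinearMap.nonneg_iff_isPositive]
    refine (ContinuousLinearMap.isPositive_iff_complex A).2 fun u => ?_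
    rw [← inner_conj_symm, hAinner, inner_self_eq_norm_sq_to_K]
    simp [← Complex.ofReal_pow]
  have hspec : ∀ r ∈ spectrum ℝ A, 0 ≤ r := fun r hr => spectrum_nonneg_of_nonneg hApos hr
  have hBn : ∀ u, ‖B u‖ ≤ ‖u‖ := fun u => by
    have e := WithLp.prod_norm_sq_eq_of_L2 (P (inr2 u))
    have h1 : ‖P (inr2 u)‖ ≤ ‖u‖ := by
      rw [hP]; exact (Submodule.norm_starProjection_apply_le _ _).trans (hn2 u).le
    rw [hBapp]
    nlinarith [norm_nonneg (P (inr2 u)).fst, norm_nonneg (P (inr2 u)),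
      sq_nonneg ‖(P (inr2 u)).snd‖]
  -- what commutes with `A` and `B`
  have hdiag : ∀ b : H →L[ℂ] H, (∀ x ∈ K, diag b x ∈ K) → (∀ x ∈ K, diag (star b) x ∈ K) →
      b * A = A * b ∧ b * B = B * b := by
    intro b hb hb'
    have e := cl_comm (b := diag b) hb (fun x hx => by rw [star_diag]; exact hb' x hx)
    rw [← hP] at e
    have e' : ∀ u, P (inr2 (b u)) = diag b (P (inr2 u)) := fun u => by
      rw [← apply_mul (diag b) P, e, apply_mul, diag_apply]
      simp [inr2_apply]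
    refine ⟨?_, ?_⟩ <;> ext u
    · rw [apply_mul, apply_mul, hAapp, hAapp, e', diag_apply]; rfl
    · rw [apply_mul, apply_mul, hBapp, hBapp, e', diag_apply]; rfl
  have hMK : ∀ b ∈ M, ∀ x ∈ K, diag b x ∈ K := by
    rintro b hb x hx
    rw [hK] at hx ⊢
    obtain ⟨a, ha, rfl⟩ := hx
    exact ⟨b * a, mul_mem hb ha, rfl⟩
  have hMA : ∀ b ∈ M, b * A = A * b ∧ b * B = B * b := fun b hb =>
    hdiag b (hMK b hb) (hMK _ (star_mem hb))
  have hUK : ∀ t, ∀ x ∈ K, diag (U t) x ∈ K := by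
    intro t x hx
    rw [hK] at hx ⊢
    obtain ⟨a, ha, rfl⟩ := hx
    refine ⟨U t * a * U (-t), h.U_mem t a ha, ?_⟩
    have hfix : U (-t) (p v) = p v := by
      rw [← apply_mul, hp.U_comm hd, apply_mul, hv]
    simp only [apply_mul, hfix, hp.U_fix hd, diag_apply, WithLp.toLp_fst, WithLp.toLp_snd]
  have hUA : ∀ t, U t * A = A * U t := fun t =>
    (hdiag (U t) (hUK t) (fun x hx => by rw [h.U_star]; exact hUK _ x hx)).1
  have hAM' : A ∈ M.commutant := VonNeumannAlgebra.mem_commutant_iff.2 fun b hb => (hMA b hb).1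
  -- `A` lives under `J p J`
  obtain ⟨p', hp'⟩ : ∃ p', p' = conjBy J p := ⟨_, rfl⟩
  have hp'M : p' ∈ M.commutant := hp' ▸ h.conj_mem p hp.1
  have hp'ξ : p' ξ = p ξ := by rw [hp', conjBy_apply, h.J_xi, hp.2.2]
  have hp'sa : IsSelfAdjoint p' := by
    rw [hp', IsSelfAdjoint, star_conjBy h.J_J, hp.2.1.isSelfAdjoint.star_eq]
  have hp'p' : ∀ u, p' (p' u) = p' u := fun u => by
    rw [hp']
    simp only [conjBy_apply, h.J_J]
    rw [← apply_mul p p, hp.2.1.isIdempotentElem.eq]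
  have hAkill : ∀ u, A (u - p' u) = 0 := by
    intro u
    have hmem : inr2 (u - p' u) ∈ K.topologicalClosureᗮ := by
      rw [Submodule.orthogonal_closure, Submodule.mem_orthogonal]
      intro x hx
      rw [hK] at hx
      obtain ⟨a, ha, rfl⟩ := hx
      have e : p' (a (p ξ)) = a (p ξ) := by
        rw [← hp'ξ, commute_apply hp'M ha, hp'p']
      rw [← inner_conj_symm, hinner, WithLp.toLp_snd, ← e, ← inner_proj hp'sa, map_sub, hp'p',
        sub_self, inner_zero_left, map_zero]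
    rw [hAapp, hP, cl, (Submodule.starProjection_apply_eq_zero_iff _).2 hmem, WithLp.zero_snd]
  have hpA : p' * A = A := by
    have e : A * p' = A := by
      ext u
      rw [apply_mul, ← sub_eq_zero, ← map_sub, ← neg_sub, map_neg, hAkill, neg_zero]
    have := congrArg star e
    rwa [star_mul, hp'sa.star_eq, hAsa.star_eq] at this
  -- `A` is not small
  have hγ : 2 * c ≤ (⟪p ξ, A (p ξ)⟫_ℂ).re := by
    rw [hAinner, inner_self_eq_norm_sq_to_K]
    obtain ⟨k0, hk0⟩ : ∃ k0 : WithLp 2 (H × H), k0 = WithLp.toLp 2 (p v, p ξ) := ⟨_, rfl⟩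
    have hk0K : P k0 = k0 := by
      rw [hP, cl_fix]
      exact hK ▸ ⟨1, one_mem M, by simp [hk0]⟩
    have e1 : ‖p ξ‖ ^ 2 ≤ ‖P (inr2 (p ξ))‖ * ‖k0‖ := by
      have e2 : ⟪P (inr2 (p ξ)), k0⟫_ℂ = ⟪p ξ, p ξ⟫_ℂ := by
        rw [inner_proj hPp.isSelfAdjoint, hk0K, hinner, hk0, WithLp.toLp_snd]
      refine le_trans ?_ (norm_inner_le_norm (𝕜 := ℂ) _ _)
      rw [e2, inner_self_eq_norm_sq_to_K]
      simp
    have e3 : ‖k0‖ ^ 2 ≤ 2 := by
      rw [hk0, WithLp.prod_norm_sq_eq_of_L2, WithLp.toLp_fst, WithLp.toLp_snd]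
      have hpn : ‖p‖ ≤ 1 := hp.2.1.norm_le
      have a1 : ‖p v‖ ≤ 1 := (p.le_of_opNorm_le hpn v).trans (by rw [one_mul]; exact hv1)
      have a2 : ‖p ξ‖ ≤ 1 := (p.le_of_opNorm_le hpn ξ).trans (by rw [one_mul, hd.std.1])
      nlinarith [norm_nonneg (p v), norm_nonneg (p ξ)]
    have e4 : (‖p ξ‖ ^ 2) ^ 2 ≤ ‖P (inr2 (p ξ))‖ ^ 2 * ‖k0‖ ^ 2 := by
      rw [← mul_pow]; exact pow_le_pow_left₀ (by positivity) e1 2
    simp [← Complex.ofReal_pow]
    nlinarith [sq_nonneg ‖P (inr2 (p ξ))‖]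
  -- the corner
  obtain ⟨g, hg⟩ : ∃ g : H →L[ℂ] H, g = cfc (fun r => max (r - c) 0) A := ⟨_, rfl⟩
  have hg0 : g ≠ 0 := by
    intro h0
    have e : A = cfc (fun r => min r c) A + g := by
      rw [hg, ← cfc_add (a := A) (fun r => min r c) (fun r => max (r - c) 0)]
      conv_lhs => rw [← cfc_id' ℝ A]
      refine cfc_congr fun r _ => ?_
      rcases le_total r c with hr | hr
      · simp [min_eq_left hr, max_eq_right (sub_nonpos.2 hr)]
      · simp [min_eq_right hr, max_eq_left (sub_nonneg.2 hr)]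
    rw [h0, add_zero] at e
    have hnorm : ‖A‖ ≤ c := by
      rw [e]
      refine norm_cfc_le hc.le fun r hr => ?_
      rw [Real.norm_eq_abs, abs_of_nonneg (le_min (hspec r hr) hc.le)]
      exact min_le_right _ _
    have hp1 : ‖p ξ‖ ≤ 1 := by
      have := p.le_of_opNorm_le hp.2.1.norm_le ξ
      rwa [one_mul, hd.std.1] at this
    have := (Complex.re_le_norm _).trans
      ((norm_inner_le_norm (p ξ) (A (p ξ))).trans
        (mul_le_mul_of_nonneg_left ((A.le_opNorm _).trans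
          (mul_le_mul_of_nonneg_right hnorm (norm_nonneg _))) (norm_nonneg _)))
    nlinarith [norm_nonneg (p ξ), mul_le_one₀ hp1 (norm_nonneg _) hp1]
  obtain ⟨e', he'⟩ : ∃ e', e' = rp g := ⟨_, rfl⟩
  have hgM' : g ∈ M.commutant := hg ▸ cfc_mem_vn hAM' _
  have he'M : e' ∈ M.commutant := he' ▸ rp_mem hgM'
  have he'p : IsStarProjection e' := he' ▸ rp_isProj g
  have hUg : ∀ t, U t * g = g * U t := fun t => by
    rw [hg]; exact ((show Commute A (U t) from (hUA t).symm).cfc_real _).eq.symm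
  have hUe' : ∀ t, U t * e' = e' * U t := by
    intro t
    have inv : ∀ s, ∀ x ∈ LinearMap.range g.toLinearMap, U s x ∈ LinearMap.range g.toLinearMap := by
      rintro s _ ⟨w, rfl⟩
      exact ⟨U s w, (DFunLike.congr_fun (hUg s) w).symm⟩
    rw [he']
    exact cl_comm (inv t) fun x hx => by rw [h.U_star]; exact inv _ x hx
  have he'ξ : ∀ t, U t (e' ξ) = e' ξ := fun t => by
    rw [← apply_mul, hUe', apply_mul, h.U_xi]
  obtain ⟨e, he⟩ : ∃ e, e = conjBy J e' := ⟨_, rfl⟩
  have heM : e ∈ M := he ▸ h.conj_mem' e' he'M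
  have heproj : IsStarProjection e := by
    refine ⟨?_, ?_⟩
    · ext u
      rw [apply_mul, he]
      simp only [conjBy_apply, h.J_J]
      rw [← apply_mul e' e', he'p.isIdempotentElem.eq]
    · rw [he, IsSelfAdjoint, star_conjBy h.J_J, he'p.isSelfAdjoint.star_eq]
  have hecen : IsCen M J ξ e := by
    refine isCen_of_U_comm h heM heproj fun t => ?_
    ext u
    simp only [he, apply_mul, conjBy_apply]
    rw [← h.U_J, h.U_J t u]
    exact congrArg J (DFunLike.congr_fun (hUe' t) (J u))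
  have heξ : e ξ = e' ξ := by
    conv_lhs => rw [← hecen.2.2]
    rw [he, conjBy_apply, h.J_xi, h.J_J]
  refine ⟨e, hecen, ?_, ?_, ?_⟩
  · intro h0
    refine rp_ne_zero hg0 ?_
    rw [← he']
    ext u
    have := DFunLike.congr_fun h0 (J u)
    rw [he, conjBy_apply, h.J_J, zero_apply, map_eq_zero_iff _ J.injective] at this
    simpa using this
  · have e1 : p' * g = g := by
      have hg' : g = A * cfc (fun r => max (r - c) 0 / max r c) A := by
        rw [hg]
        conv_rhs => arg 1; rw [← cfc_id' ℝ A]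
        rw [← cfc_mul (fun r : ℝ => r) (fun r => max (r - c) 0 / max r c) A continuousOn_id
          ((Continuous.div (by fun_prop) (by fun_prop)
            fun r => (lt_max_of_lt_right hc).ne').continuousOn)]
        refine cfc_congr fun r _ => ?_
        rcases le_total r c with hr | hr
        · simp [max_eq_right (sub_nonpos.2 hr)]
        · rw [max_eq_left (sub_nonneg.2 hr), max_eq_left hr]
          field_simp [(hc.trans_le hr).ne']
      rw [hg', ← mul_assoc, hpA]
    have e2 : p' * e' = e' := he' ▸ mul_rp e1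
    ext u
    have := congrArg J (DFunLike.congr_fun e2 (J u))
    simpa [he, hp', conjBy_apply, h.J_J] using this
  intro x hx
  -- `k A e' = e'`
  have hkc : Continuous fun r : ℝ => (max r c)⁻¹ :=
    (continuous_id.max continuous_const).inv₀ fun r => (lt_max_of_lt_right hc).ne'
  obtain ⟨k, hk⟩ : ∃ k : H →L[ℂ] H, k = cfc (fun r => (max r c)⁻¹) A := ⟨_, rfl⟩
  have hkAe : A * k * e' = e' := by
    rw [he']
    refine mul_rp ?_
    rw [hg, hk]
    conv_lhs => arg 1; arg 1; rw [← cfc_id' ℝ A]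
    rw [← cfc_mul (fun r : ℝ => r) (fun r => (max r c)⁻¹) A continuousOn_id hkc.continuousOn,
      ← cfc_mul (fun r : ℝ => r * (max r c)⁻¹) (fun r => max (r - c) 0) A
        (continuousOn_id.mul hkc.continuousOn) (by fun_prop)]
    refine cfc_congr fun r _ => ?_
    rcases le_total r c with hr | hr
    · simp [max_eq_right (sub_nonpos.2 hr)]
    · rw [max_eq_left hr, mul_inv_cancel₀ (hc.trans_le hr).ne', one_mul]
  obtain ⟨w, hw⟩ : ∃ w, w = k (e' ξ) := ⟨_, rfl⟩
  have hAw : A w = e ξ := by rw [hw, ← apply_mul, ← apply_mul, hkAe, heξ]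
  have hBw : e v = B w := by
    refine hd.std.2.1.eq_of_inner_right (𝕜 := ℂ) ?_
    rintro _ ⟨b, hb, rfl⟩
    have hmem : P (inr2 w) ∈ closure (K : Set (WithLp 2 (H × H))) := by
      rw [hP, cl, ← Submodule.topologicalClosure_coe]
      exact Submodule.starProjection_apply_mem _ _
    have hclosed : IsClosed {z : WithLp 2 (H × H) | ⟪b ξ, z.fst⟫_ℂ = ⟪b (J v), z.snd⟫_ℂ} :=
      isClosed_eq (continuous_const.inner (WithLp.fstL 2 ℂ H H).continuous)
        (continuous_const.inner (WithLp.sndL 2 ℂ H H).continuous)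
    have := closure_minimal (fun z hz => ?_) hclosed hmem
    · rw [Set.mem_ofPred_eq, ← hBapp, ← hAapp, hAw, ← fixed_pairing h hR heM hb] at this
      exact this.symm
    · rw [SetLike.mem_coe, hK] at hz
      obtain ⟨a, ha, rfl⟩ := hz
      rw [Set.mem_ofPred_eq, WithLp.toLp_fst, WithLp.toLp_snd, ← apply_mul a p, ← apply_mul a p]
      exact fixed_pairing h hR (mul_mem ha hp.1) hb
  have hkM' : k ∈ M.commutant := hk ▸ cfc_mem_vn hAM' _
  have hxk : x (e v) = B (k (e' (x ξ))) := by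
    rw [hBw, hw, commute_apply he'M hx, commute_apply hkM' hx, ← apply_mul, (hMA x hx).2,
      apply_mul]
  rw [hxk]
  refine (hBn _).trans ((k.le_opNorm _).trans (mul_le_mul ?_ ?_ (norm_nonneg _) (by positivity)))
  · rw [hk]
    refine norm_cfc_le (by positivity) fun r _ => ?_
    rw [Real.norm_eq_abs, abs_of_nonneg (by positivity)]
    exact inv_anti₀ hc (le_max_right _ _)
  · have := e'.le_of_opNorm_le he'p.norm_le (x ξ)
    simpa using this

/-- A vector fixed by the modular group is bounded on a corner under `p`. -/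
theorem exists_bounded_corner (hd : StdData M ξ R J U) {p : H →L[ℂ] H} (hp : IsCen M J ξ p)
    (hp0 : p ≠ 0) :
    ∃ C : ℝ, 0 < C ∧ ∀ v : H, (∀ t, U t v = v) →
      ∃ e, IsCen M J ξ e ∧ e ≠ 0 ∧ p * e = e ∧ ∀ x ∈ M, ‖x (e v)‖ ≤ C * ‖v‖ * ‖x ξ‖ := by
  have hpξ : 0 < ‖p ξ‖ := norm_pos_iff.2 fun h => hp0 (hd.std.2.2 p hp.1 h)
  refine ⟨(‖p ξ‖ ^ 4 / 4)⁻¹, by positivity, fun v hv => ?_⟩
  rcases eq_or_ne v 0 with rfl | hv0
  · exact ⟨p, hp, hp0, hp.2.1.isIdempotentElem.eq, fun x _ => by simp⟩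
  have hn : 0 < ‖v‖ := norm_pos_iff.2 hv0
  obtain ⟨e, h1, h2, h3, h4⟩ := exists_bounded_corner_aux hd hp (c := ‖p ξ‖ ^ 4 / 4)
    (by positivity) (by linarith) (v := ((‖v‖⁻¹ : ℝ) : ℂ) • v)
    (fun t => by rw [map_smul, hv])
    (by rw [norm_smul, Complex.norm_real, Real.norm_of_nonneg (by positivity),
      inv_mul_cancel₀ hn.ne'])
  refine ⟨e, h1, h2, h3, fun x hx => ?_⟩
  have := h4 x hx
  rw [map_smul, map_smul, norm_smul, Complex.norm_real, Real.norm_of_nonneg (by positivity),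
    inv_mul_le_iff₀ hn] at this
  exact this.trans_eq (by ring)

end Vale.Agent.P132.TypeThree
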