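import Vale.Agent.P132.TypeThree.Transport

/-!
P132: in a type III₁ factor, any two nonzero projections commuting with `η` are joined by an
element which nearly commutes with `η`, relative to its size.
-/

open scoped InnerProductSpace ComplexConjugate Topology
open Filter

namespace Vale.Agent.P132.TypeThree

open Vale.Agent.P132.Tomita Vale.Agent.P104.Continuous

variable {H : Type} [NormedAddCommGroup H] [InnerProductSpace ℂ H] [CompleteSpace H]
variable {M : VonNeumannAlgebra H} {η : H} {R : H →L[ℂ] H} {J : H ≃ₗᵢ⋆[ℂ] H}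
  {U : ℝ → (H →L[ℂ] H)}

theorem cut_bump_nonneg {p d : ℝ} (hd : 0 < d) (r : ℝ) : 0 ≤ cut (bump p d hd) r := by
  rw [cut]
  split
  · exact (bump p d hd).nonneg
  · rfl

theorem continuous_cut_bump {p d : ℝ} (hd : 0 < d) : Continuous (cut (bump p d hd)) :=
  continuous_cut (bump p d hd).continuous (bump p d hd).hasCompactSupport

/-- Every corner has nonzero elements in every band. -/
theorem exists_corner_band (hD : StdData M η R J U) (h3 : IsTypeThree M)
    (hS : HasFullSpectrum M) {e : H →L[ℂ] H} (he : IsCen M J η e) (he0 : e ≠ 0) (p : ℝ) {d : ℝ}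
    (hd : 0 < d) : ∃ a, IsBand M J η p d a ∧ e * a = a ∧ a * e = a ∧ a ≠ 0 := by
  have hl : 0 < Real.exp p := Real.exp_pos p
  obtain ⟨g, hg⟩ : ∃ g : ℝ → ℝ, g = fun r => (2 - r - Real.exp p * r) ^ 2 + cut (bump p d hd) r :=
    ⟨_, rfl⟩
  have hgc : Continuous g := by
    rw [hg]; exact (by fun_prop : Continuous fun r : ℝ => (2 - r - Real.exp p * r) ^ 2).add
      (continuous_cut_bump hd)
  obtain ⟨r0, hr0, hmin⟩ := (isCompact_Icc (a := (0 : ℝ)) (b := 2)).exists_isMinOn
    (Set.nonempty_Icc.2 zero_le_two) hgc.continuousOn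
  have hgpos : 0 < g r0 := by
    rw [hg]
    rcases eq_or_ne (2 - r0 - Real.exp p * r0) 0 with h0 | h0
    · have h1 : 0 < r0 := hr0.1.lt_of_ne fun h => by rw [← h] at h0; norm_num at h0
      have h2 : r0 < 2 := by nlinarith [mul_pos hl h1]
      have h3 : lg r0 = p := by
        refine Real.exp_injective ?_
        rw [exp_lg h1 h2, div_eq_iff h1.ne']
        linarith
      have h4 : cut (bump p d hd) r0 = 1 := by
        rw [cut, if_pos ⟨h1, h2⟩, h3]
        exact (bump p d hd).one_of_mem_closedBall (Metric.mem_closedBall_self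
          (show (0 : ℝ) ≤ d / 2 by positivity))
      simp only [h4]
      positivity
    · have := cut_bump_nonneg hd r0 (p := p)
      positivity
  obtain ⟨X, hX, heX, hXe, hXne, hXb⟩ :=
    exists_corner_eigen hD h3 hS he he0 hl (show 0 < Real.sqrt (g r0 / 2) by positivity)
  obtain ⟨a, ha, haη, hac⟩ := exists_band_of hD.mod hX p hd
  refine ⟨a, ha, (hac e (he.U_comm hD)).1 heX, (hac e (he.U_comm hD)).2 hXe, fun h0 => ?_⟩
  rw [h0, zero_apply] at haη
  obtain ⟨u, hu⟩ : ∃ u : H, u = (2 : ℂ) • X η - R (X η) - (Real.exp p : ℂ) • R (X η) := ⟨_, rfl⟩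
  rw [← hu] at hXb
  obtain ⟨L, hL⟩ : ∃ L : H →L[ℂ] H, L = cfc (fun r : ℝ => 2 - r - Real.exp p * r) R := ⟨_, rfl⟩
  have hLv : L (X η) = u := by
    rw [hu, hL, cfc_sub (a := R) (fun r : ℝ => 2 - r) (fun r => Real.exp p * r) (by fun_prop)
        (by fun_prop), cfc_sub (fun _ : ℝ => (2 : ℝ)) (fun r => r) R, cfc_const (2 : ℝ) R hD.mod.R_sa,
      cfc_const_mul (Real.exp p) (fun r : ℝ => r) R, cfc_id' ℝ R hD.mod.R_sa, map_ofNat,
      sub_apply, sub_apply, smul_apply]
    simp [show (2 : H →L[ℂ] H) = 1 + 1 by norm_num, two_smul, ← Complex.coe_smul]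
  have hLs : IsSelfAdjoint L := hL ▸ cfc_predicate _ R
  have hle : cfc (fun _ : ℝ => g r0) R ≤ cfc g R :=
    cfc_mono (fun r hr => hmin (hD.mod.R_spec hr)) continuousOn_const hgc.continuousOn
  have hdec : cfc g R = L * L + cfc (cut (bump p d hd)) R := by
    rw [hg, cfc_add (a := R) (fun r : ℝ => (2 - r - Real.exp p * r) ^ 2) (cut (bump p d hd))
      (by fun_prop) (continuous_cut_bump hd).continuousOn, hL,
      ← cfc_mul (fun r : ℝ => 2 - r - Real.exp p * r) (fun r => 2 - r - Real.exp p * r) R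
        (by fun_prop) (by fun_prop)]
    congr 1
    exact cfc_congr fun r _ => sq _
  have h1 := ((ContinuousLinearMap.le_def _ _).1 hle).re_inner_nonneg_right (X η)
  rw [hdec, cfc_const (g r0) R hD.mod.R_sa, sub_apply, add_apply, apply_mul, hLv, ← haη, add_zero,
    inner_sub_right, Algebra.algebraMap_eq_smul_one, smul_apply, one_apply_eq_self,
    ← Complex.coe_smul, inner_smul_right, ← inner_proj hLs, hLv, map_sub,
    inner_self_eq_norm_sq_to_K, inner_self_eq_norm_sq_to_K] at h1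
  simp [← Complex.ofReal_pow] at h1
  have h2 : ‖u‖ ^ 2 ≤ g r0 / 2 * ‖X η‖ ^ 2 := by
    calc ‖u‖ ^ 2 ≤ (Real.sqrt (g r0 / 2) * ‖X η‖) ^ 2 := pow_le_pow_left₀ (norm_nonneg _) hXb 2
      _ = _ := by rw [mul_pow, Real.sq_sqrt (by positivity)]
  have : 0 < g r0 * ‖X η‖ ^ 2 := mul_pos hgpos (pow_pos (norm_pos_iff.2 hXne) 2)
  linarith

/-- A vector which all small bands kill is zero. -/
theorem eq_zero_of_bands (h : Modular M η R J U) {v : H} {d : ℝ} (hd : 0 < d)
    (hv : ∀ p, cfc (cut (bump p d hd)) R v = 0) : v = 0 := by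
  refine eq_zero_of_inner_opT h (le_antisymm ?_ (re_inner_opT_nonneg v))
  refine le_of_forall_pos_le_add fun ε hε => ?_
  obtain ⟨δ, hδdef⟩ : ∃ δ : ℝ, δ = ε / (‖v‖ ^ 2 + 1) := ⟨_, rfl⟩
  have hδ0 : 0 < δ := hδdef ▸ by positivity
  obtain ⟨S, hSdef⟩ : ∃ S : Set ℝ, S = Set.Icc 0 2 ∩ {r | δ ≤ fT r} := ⟨_, rfl⟩
  have hSc : IsCompact S := hSdef ▸ isCompact_Icc.inter_right (isClosed_le continuous_const continuous_fT')
  have hSpos : ∀ r ∈ S, 0 < r ∧ r < 2 := fun r hr => by
    by_contra hn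
    rw [hSdef] at hr
    have := hr.2
    rw [Set.mem_setOf_eq, fT_zero hn] at this
    linarith
  obtain ⟨Lb, hLb⟩ := hSc.exists_bound_of_continuousOn (f := lg)
    fun r hr => (continuousAt_lg (hSpos r hr).1 (hSpos r hr).2).continuousWithinAt
  obtain ⟨N, hN⟩ := exists_nat_gt (|Lb| / (d / 2) + 1)
  obtain ⟨G, hGdef⟩ : ∃ G : Finset ℤ, G = Finset.Icc (-(N : ℤ)) N := ⟨_, rfl⟩
  obtain ⟨s, hs⟩ : ∃ s : ℝ → ℝ, s = fun r => δ + ∑ k ∈ G, cut (bump ((k : ℝ) * (d / 2)) d hd) r :=
    ⟨_, rfl⟩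
  have hsc : Continuous s := by
    rw [hs]; exact continuous_const.add (continuous_finsetSum _ fun k _ => continuous_cut_bump hd)
  have hpt : ∀ r ∈ Set.Icc (0 : ℝ) 2, fT r ≤ s r := by
    intro r hr
    have hsum : 0 ≤ ∑ k ∈ G, cut (bump ((k : ℝ) * (d / 2)) d hd) r :=
      Finset.sum_nonneg fun k _ => cut_bump_nonneg hd r
    by_cases hrS : δ ≤ fT r
    · have hrS' : r ∈ S := by rw [hSdef]; exact ⟨hr, hrS⟩
      have hT1 : fT r ≤ 1 := by
        refine (Real.sqrt_le_sqrt (show r * (2 - r) ≤ 1 by nlinarith [sq_nonneg (r - 1)])).trans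
          Real.sqrt_one.le
      set k := ⌊lg r / (d / 2)⌋ with hk
      have hk1 : (k : ℝ) ≤ lg r / (d / 2) := Int.floor_le _
      have hk2 : lg r / (d / 2) < (k : ℝ) + 1 := Int.lt_floor_add_one _
      have hlb : |lg r| / (d / 2) ≤ |Lb| / (d / 2) :=
        div_le_div_of_nonneg_right ((hLb r hrS').trans (le_abs_self _)) (by positivity)
      have habs : |lg r / (d / 2)| = |lg r| / (d / 2) := by
        rw [abs_div, abs_of_pos (by positivity : 0 < d / 2)]
      have hkG : k ∈ G := by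
        rw [hGdef, Finset.mem_Icc]
        constructor
        · have : (-(N : ℝ)) ≤ (k : ℝ) := by linarith [neg_abs_le (lg r / (d / 2))]
          exact_mod_cast this
        · have : (k : ℝ) ≤ (N : ℝ) := by linarith [le_abs_self (lg r / (d / 2))]
          exact_mod_cast this
      have hone : cut (bump ((k : ℝ) * (d / 2)) d hd) r = 1 := by
        rw [cut, if_pos (hSpos r hrS')]
        refine (bump _ d hd).one_of_mem_closedBall ?_
        rw [Metric.mem_closedBall, Real.dist_eq]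
        show |lg r - (k : ℝ) * (d / 2)| ≤ d / 2
        rw [le_div_iff₀ (by positivity)] at hk1
        rw [div_lt_iff₀ (by positivity)] at hk2
        rw [abs_le]
        constructor <;> nlinarith
      have := Finset.single_le_sum (f := fun k : ℤ => cut (bump ((k : ℝ) * (d / 2)) d hd) r)
        (fun k _ => cut_bump_nonneg hd r) hkG
      simp only [hone] at this
      rw [hs]; linarith
    · rw [hs]; simp only []; linarith
  have hle : opT R ≤ cfc s R :=
    cfc_mono (fun r hr => hpt r (h.R_spec hr)) continuous_fT'.continuousOn hsc.continuousOn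
  have hsv : cfc s R v = (δ : ℂ) • v := by
    have e : cfc s R = cfc (fun _ : ℝ => δ) R + ∑ k ∈ G, cfc (cut (bump ((k : ℝ) * (d / 2)) d hd)) R := by
      rw [hs, cfc_add (a := R) (fun _ : ℝ => δ) (fun r => ∑ k ∈ G, cut (bump ((k : ℝ) * (d / 2)) d hd) r)
          continuousOn_const (continuous_finsetSum _ fun k _ => continuous_cut_bump hd).continuousOn,
        ← cfc_sum (fun k : ℤ => cut (bump ((k : ℝ) * (d / 2)) d hd)) R G
          fun k _ => (continuous_cut_bump hd).continuousOn]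
      simp only [Finset.sum_fn]
    rw [e, add_apply, cfc_const δ R h.R_sa, _root_.sum_apply, Finset.sum_eq_zero fun k _ => hv _]
    simp [Algebra.algebraMap_eq_smul_one]
  have h1 := ((ContinuousLinearMap.le_def _ _).1 hle).re_inner_nonneg_right v
  rw [sub_apply, inner_sub_right, hsv, inner_smul_right, inner_self_eq_norm_sq_to_K,
    map_sub] at h1
  simp [← Complex.ofReal_pow] at h1
  have h3 : δ * (‖v‖ ^ 2 + 1) = ε := by rw [hδdef]; field_simp
  nlinarith

/-- Two nonzero centralizing projections are joined by a nonzero element of a band at zero. -/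
theorem exists_band_zero (hD : StdData M η R J U) (h3 : IsTypeThree M)
    (hS : HasFullSpectrum M) {e f : H →L[ℂ] H} (he : IsCen M J η e) (hf : IsCen M J η f)
    (he0 : e ≠ 0) (hf0 : f ≠ 0) {d : ℝ} (hd : 0 < d) :
    ∃ z, IsBand M J η 0 (d + d) z ∧ f * z = z ∧ z * e = z ∧ z ≠ 0 := by
  -- something in `f M e`
  obtain ⟨we, hwe, hwe1, hwe2⟩ := h3.2 e he.1 he.2.1 he0
  obtain ⟨wf, hwf, hwf1, hwf2⟩ := h3.2 f hf.1 hf.2.1 hf0
  obtain ⟨x, hxdef⟩ : ∃ x, x = wf * star we := ⟨_, rfl⟩
  have hx : x ∈ M := hxdef ▸ mul_mem hwf (star_mem hwe)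
  have hfx : f * x = x := by
    rw [hxdef, ← mul_assoc, ← hwf2, mul_assoc wf, hwf1, mul_one]
  have hxe : x * e = x := by
    rw [hxdef, mul_assoc, ← hwe2, ← mul_assoc (star we), hwe1, one_mul]
  have hxη : x η ≠ 0 := fun h0 => he0 <| by
    have hx0 := hD.std.2.2 x hx h0
    have : star x * x = e := by
      rw [hxdef, star_mul, star_star, mul_assoc, ← mul_assoc (star wf), hwf1, one_mul, hwe2]
    rw [← this, hx0, mul_zero]
  obtain ⟨p, hp⟩ : ∃ p, cfc (cut (bump p d hd)) R (x η) ≠ 0 := by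
    by_contra hn
    exact hxη (eq_zero_of_bands hD.mod hd fun p => not_not.1 fun hp => hn ⟨p, hp⟩)
  obtain ⟨b, hb, hbη, hbc⟩ := exists_band_of hD.mod hx p hd
  have hb0 : b ≠ 0 := fun h0 => hp (by rw [← hbη, h0, zero_apply])
  have hfb : f * b = b := (hbc f (hf.U_comm hD)).1 hfx
  have hbe : b * e = b := (hbc e (he.U_comm hD)).2 hxe
  -- the join of the ranges of the band `-p` of the corner
  obtain ⟨W, hW⟩ : ∃ W : Submodule ℂ H,
      W = Submodule.span ℂ {v | ∃ a, IsBand M J η (-p) d a ∧ e * a = a ∧ a * e = a ∧ ∃ u, v = a u} :=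
    ⟨_, rfl⟩
  have hstable : ∀ c : H →L[ℂ] H,
      (∀ a, IsBand M J η (-p) d a → e * a = a → a * e = a → ∀ u, c (a u) ∈ W) →
      ∀ v ∈ W, c v ∈ W := by
    intro c hc v hv
    rw [hW] at hv hc ⊢
    refine (Submodule.span_le (p := Submodule.comap c.toLinearMap (Submodule.span ℂ
      {v | ∃ a, IsBand M J η (-p) d a ∧ e * a = a ∧ a * e = a ∧ ∃ u, v = a u}))).2 ?_ hv
    rintro _ ⟨a, ha, h1, h2, u, rfl⟩
    exact hc a ha h1 h2 u
  have hQM : cl W ∈ M := cl_mem fun c hc => hstable c fun a ha h1 h2 u => by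
    rw [commute_apply hc ha.mem, hW]
    exact Submodule.subset_span ⟨a, ha, h1, h2, _, rfl⟩
  have hQU : ∀ t, U t * cl W = cl W * U t := fun t => by
    have hmv : ∀ s, ∀ v ∈ W, U s v ∈ W := fun s => hstable _ fun a ha h1 h2 u => by
      rw [hW]
      refine Submodule.subset_span ⟨U s * a * U (-s), ha.conj_U hD.mod s, ?_, ?_, U s u, ?_⟩
      · rw [← mul_assoc, ← mul_assoc, ← he.U_comm hD, mul_assoc (U s) e, h1]
      · rw [mul_assoc, he.U_comm hD, ← mul_assoc, mul_assoc (U s) a e, h2]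
      · rw [apply_mul, apply_mul, ← apply_mul (U (-s)), U_neg_mul hD.mod, one_apply_eq_self]
    exact cl_comm (hmv t) (by rw [hD.mod.U_star]; exact hmv (-t))
  have heQ : e * cl W = cl W := by
    have : (e - 1) * cl W = 0 := cl_kill fun v hv => by
      rw [hW] at hv
      refine (Submodule.span_le (p := LinearMap.ker (e - 1).toLinearMap)).2 ?_ hv
      rintro _ ⟨a, -, h1, -, u, rfl⟩
      show (e - 1) (a u) = 0
      rw [sub_apply, one_apply_eq_self, ← apply_mul e a, h1, sub_self]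
    rwa [sub_mul, one_mul, sub_eq_zero] at this
  have hQe : cl W * e = cl W := by
    have := congrArg star heQ
    rwa [star_mul, (cl_isProj W).isSelfAdjoint.star_eq, he.2.1.isSelfAdjoint.star_eq] at this
  have hQ : cl W = e := by
    have hp' : IsStarProjection (e - cl W) := by
      refine ⟨?_, he.2.1.isSelfAdjoint.sub (cl_isProj W).isSelfAdjoint⟩
      show (e - cl W) * (e - cl W) = e - cl W
      rw [sub_mul, mul_sub, mul_sub, he.2.1.isIdempotentElem.eq, heQ, hQe,
        (cl_isProj W).isIdempotentElem.eq]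
      abel
    have hc0 : IsCen M J η (e - cl W) :=
      isCen_of_U_comm hD.mod (sub_mem he.1 hQM) hp' fun t => by
        rw [mul_sub, sub_mul, he.U_comm hD, hQU]
    by_contra hne
    obtain ⟨a, ha, h1, h2, ha0⟩ :=
      exists_corner_band hD h3 hS hc0 (sub_ne_zero.2 (Ne.symm hne)) (-p) hd
    have he1 : e * a = a := by
      rw [← h1, ← mul_assoc, mul_sub, he.2.1.isIdempotentElem.eq, heQ]
    have he2 : a * e = a := by
      rw [← h2, mul_assoc, sub_mul, he.2.1.isIdempotentElem.eq, hQe]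
    have hQa : cl W * a = a := by
      ext u
      rw [apply_mul]
      refine cl_fix ?_
      rw [hW]
      exact Submodule.subset_span ⟨a, ha, he1, he2, u, rfl⟩
    rw [sub_mul, he1, hQa, sub_self] at h1
    exact ha0 h1.symm
  obtain ⟨a, ha, h1, h2, hba⟩ :
      ∃ a, IsBand M J η (-p) d a ∧ e * a = a ∧ a * e = a ∧ b * a ≠ 0 := by
    by_contra hn
    refine hb0 ?_
    rw [← hbe, ← hQ]
    refine cl_kill fun v hv => ?_
    rw [hW] at hv
    refine (Submodule.span_le (p := LinearMap.ker b.toLinearMap)).2 ?_ hv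
    rintro _ ⟨a, ha, h1, h2, u, rfl⟩
    show b (a u) = 0
    rw [← apply_mul b a, not_not.1 fun h0 => hn ⟨a, ha, h1, h2, h0⟩, zero_apply]
  refine ⟨b * a, ?_, by rw [← mul_assoc, hfb], by rw [mul_assoc, h2], hba⟩
  have := hb.mul hD.mod ha
  rwa [add_neg_cancel] at this

/-- In a type III₁ factor two nonzero centralizing projections are joined by an element nearly
commuting with `η`. -/
theorem exists_gap (hd : StdData M η R J U) (hIII : IsTypeIIIOne M) {e f : H →L[ℂ] H}
    (he : IsCen M J η e) (hf : IsCen M J η f) (he0 : e ≠ 0) (hf0 : f ≠ 0) {b : ℝ} (hb : 0 < b) :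
    ∃ x ∈ M, f * x * e = x ∧ x η ≠ 0 ∧ ‖cm J η x‖ ≤ b * ‖x η‖ := by
  obtain ⟨d, hd0, hdb⟩ : ∃ d : ℝ, 0 < d ∧
      Real.exp (2 * (d + d)) - 2 * Real.exp (-(d + d)) + 1 ≤ b ^ 2 := by
    have hc : Continuous fun d : ℝ => Real.exp (2 * (d + d)) - 2 * Real.exp (-(d + d)) + 1 := by
      fun_prop
    have h0 := (hc.tendsto 0).eventually_lt (tendsto_const_nhds (x := b ^ 2))
      (by simpa using by nlinarith)
    obtain ⟨r, hr, hball⟩ := Metric.eventually_nhds_iff.1 h0
    refine ⟨r / 2, by positivity, (hball ?_).le⟩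
    rw [Real.dist_eq, sub_zero, abs_of_pos (by positivity)]
    linarith
  obtain ⟨z, hz, hfz, hze, hz0⟩ := exists_band_zero hd hIII.2.1 hIII.2.2 he hf he0 hf0 hd0
  refine ⟨z, hz.mem, by rw [hfz, hze], fun h => hz0 (hd.std.2.2 z hz.mem h), ?_⟩
  have := hz.norm_cm_sq_le hd
  refine (sq_le_sq₀ (norm_nonneg _) (by positivity)).1 (this.trans ?_)
  rw [mul_pow]
  exact mul_le_mul_of_nonneg_right hdb (sq_nonneg _)

end Vale.Agent.P132.TypeThree
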