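import Vale.Agent.P132.TypeThree.FixedProj
import Vale.Agent.P132.Assemble
import Vale.Agent.P132.Mod
import Vale.Agent.P132.Sigma

/-!
P132: the bicentralizer is trivial as soon as `ProjSpec` holds.
-/

open Vale.Agent.P132.TypeThree (StdData)

namespace VP132

variable {H : Type} [NormedAddCommGroup H] [InnerProductSpace ℂ H] [CompleteSpace H]

/-- The bicentralizer is trivial when no projection other than `0`, `1` commutes with `ξ` and has a
modulus. -/
theorem scalar_of_projSpec' {M : VonNeumannAlgebra H} {ξ : H}
    (hs : IsStandardVector H M ξ)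
    (hproj : ∀ R J U, StdData M ξ R J U → ProjSpec M ξ J) {a : H →L[ℂ] H}
    (ha : InBicentralizer H M ξ a) : ∃ c : ℂ, a = c • 1 := by
  obtain ⟨R, J, U, hd⟩ := exists_stdData hs
  exact scalar_of_specs (modSpec hd.mod hs) (sigmaSpec hd.mod)
    (fixedSpec_of_proj hd.mod (rowSpec hd.mod) (hproj R J U hd)) ha

end VP132
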