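import Vale.Agent.P132.TypeThree.Corner
import Vale.Agent.P132.TypeThree.Gap
import Vale.Agent.P132.TypeThree.FixedProj
import Vale.Agent.P132.Row

/-!
P132: in a type III₁ factor a projection commuting with `ξ` and having a modulus is `0` or `1`.

For `x = (1 - p) x p` the vector `w x = J (x* x ξ) - x J x ξ` pairs with `p ξ` to `‖x ξ‖²`, and by
the walk lemma it pairs to little if `x` nearly commutes with `ξ`, unless it is long. So the
vector `v` of least norm in the closed convex set spanned by these vectors is long; it is fixed by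
the modular group, hence bounded on corners `e₁ ≤ p` and `e₂ ≤ 1 - p`, and an element of
`e₂ M e₁` nearly commuting with `ξ` shows that it is short.
-/

open scoped InnerProductSpace ComplexConjugate Topology
open Filter

namespace Vale.Agent.P132.TypeThree

open Vale.Agent.P132.Tomita Vale.Agent.P104.Continuous

variable {H : Type} [NormedAddCommGroup H] [InnerProductSpace ℂ H] [CompleteSpace H]
variable {M : VonNeumannAlgebra H} {ξ : H} {R : H →L[ℂ] H} {J : H ≃ₗᵢ⋆[ℂ] H}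
  {U : ℝ → (H →L[ℂ] H)}

/-- The walk for a family of elements of `M`, from a modulus on unitaries. -/
theorem walk_family (hm : Modular M ξ R J U) {p : H →L[ℂ] H} (hpM : p ∈ M)
    (hcomm : VP132.Fixed.Comm M ξ J p) {e : ℝ} (he : 0 < e) :
    ∃ c : ℝ, 0 < c ∧ ∀ (ι : Type) [Fintype ι] (x : ι → H →L[ℂ] H), (∀ i, x i ∈ M) →
      ∀ s : ℝ, 0 < s → s * ∑ i, ‖cm J ξ (x i)‖ ^ 2 ≤ c →
        ∃ ζ : H, ‖ζ - p ξ‖ ≤ e ∧
          s * ∑ i, ‖J (x i (J ζ)) - star (x i) ζ‖ ^ 2 ≤ 256 * ‖p ξ‖ ^ 2 := by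
  have hmod' : ∀ e : ℝ, 0 < e → ∃ d : ℝ, 0 < d ∧ ∀ g ∈ VP132.Row.adGroup hm,
      ‖g ξ - ξ‖ ≤ d → ‖g (p ξ) - p ξ‖ ≤ e := by
    intro e he
    obtain ⟨δ, hδ, hδ'⟩ := hcomm (e / 2) (by linarith)
    refine ⟨min δ (e / (6 * ‖p‖ + 1)), lt_min hδ (by positivity), ?_⟩
    rintro _ ⟨W, hW, h1, h2, rfl⟩ hg
    obtain ⟨e1, e2⟩ := VP132.Row.adGroup_mod hm hpM hW h1 h2
    rw [e1, le_min_iff, le_div_iff₀ (by positivity)] at hg
    have := hδ' W hW (VP132.Fixed.le_one_of_star_mul_self h1) hg.1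
    nlinarith [norm_nonneg (W ξ - VP132.rho J W ξ), norm_nonneg p]
  obtain ⟨c, hc, hwalk⟩ := VP132.Walk.walk_lemma (VP132.Row.adGroup hm)
    (VP132.Row.adGroup_isometry hm) ξ (p ξ) hmod' he
  refine ⟨c / 2, by positivity, fun ι _ x hx s hs hsum => ?_⟩
  let b : ι → H →L[ℂ] H := fun i => (2 : ℂ)⁻¹ • (x i + star (x i))
  let b' : ι → H →L[ℂ] H := fun i => ((2 : ℂ)⁻¹ * -Complex.I) • (x i - star (x i))
  let L : ι ⊕ ι → H →L[ℂ] H := Sum.elim b b'
  have hxb : ∀ i, x i = b i + Complex.I • b' i := by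
    intro i
    simp only [b, b', smul_smul]
    rw [show Complex.I * ((2 : ℂ)⁻¹ * -Complex.I) = (2 : ℂ)⁻¹ by
      rw [mul_left_comm, mul_neg, Complex.I_mul_I, neg_neg, mul_one]]
    module
  have hLM : ∀ k, L k ∈ M := by
    rintro (i | i)
    · exact smul_mem_vn _ (add_mem (hx i) (star_mem (hx i)))
    · exact smul_mem_vn _ (sub_mem (hx i) (star_mem (hx i)))
  have hLs : ∀ k, IsSelfAdjoint (L k) := by
    rintro (i | i)
    · simp [L, b, IsSelfAdjoint, add_comm]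
    · simp only [L, Sum.elim_inr, b', IsSelfAdjoint, star_smul, star_sub, star_star]
      simp
      module
  have hdef : ∀ i, ‖(L (.inl i) - conjBy J (L (.inl i))) ξ‖ ≤ ‖cm J ξ (x i)‖ ∧
      ‖(L (.inr i) - conjBy J (L (.inr i))) ξ‖ ≤ ‖cm J ξ (x i)‖ := by
    intro i
    have hn : ‖cm J ξ (star (x i))‖ = ‖cm J ξ (x i)‖ := by
      simp only [cm, star_star]
      rw [← J.norm_map, map_sub, hm.J_J, norm_sub_rev]
    have e1 : (L (.inl i) - conjBy J (L (.inl i))) ξ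
        = (2 : ℂ)⁻¹ • (cm J ξ (x i) + cm J ξ (star (x i))) := by
      simp [L, b, cm, conjBy_apply, hm.J_xi, LinearIsometryEquiv.map_smulₛₗ, Complex.conj_ofNat]
      module
    have e2 : (L (.inr i) - conjBy J (L (.inr i))) ξ
        = ((2 : ℂ)⁻¹ * -Complex.I) • (cm J ξ (x i) - cm J ξ (star (x i))) := by
      simp [L, b', cm, conjBy_apply, hm.J_xi, LinearIsometryEquiv.map_smulₛₗ, Complex.conj_ofNat]
      module
    constructor
    · rw [e1, norm_smul]
      have := norm_add_le (cm J ξ (x i)) (cm J ξ (star (x i)))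
      norm_num
      linarith
    · rw [e2, norm_smul]
      have := norm_sub_le (cm J ξ (x i)) (cm J ξ (star (x i)))
      norm_num
      linarith
  have hL2 : s * ∑ k, ‖(L k - conjBy J (L k)) ξ‖ ^ 2 ≤ c := by
    rw [Fintype.sum_sum_type]
    have h1 := Finset.sum_le_sum (s := Finset.univ)
      fun i _ => pow_le_pow_left₀ (norm_nonneg _) (hdef i).1 2
    have h2 := Finset.sum_le_sum (s := Finset.univ)
      fun i _ => pow_le_pow_left₀ (norm_nonneg _) (hdef i).2 2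
    calc _ ≤ s * (∑ i, ‖cm J ξ (x i)‖ ^ 2 + ∑ i, ‖cm J ξ (x i)‖ ^ 2) := by gcongr
      _ ≤ c := by linarith
  obtain ⟨ζ, hζ, hE⟩ := hwalk (ι ⊕ ι) L (fun k => conjBy J (L k)) hLs
    (fun k => by rw [IsSelfAdjoint, star_conjBy hm.J_J, (hLs k).star_eq])
    (fun k => VP132.Row.commute_conjBy hm (hLM k) (hLM k))
    (fun k t => by
      refine ⟨VP132.Walk.cay (L k) t, VP132.Row.cay_mem M (hLs k) (hLM k) t, ?_, ?_, ?_⟩
      · rw [VP132.Walk.star_cay (hLs k), VP132.Walk.cay_neg_mul (hLs k)]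
      · rw [VP132.Walk.star_cay (hLs k)]
        simpa using VP132.Walk.cay_neg_mul (hLs k) (-t)
      · rw [VP132.Row.conjBy_cay J hm.J_J (hLs k)])
    s hs hL2
  refine ⟨ζ, hζ, ?_⟩
  rw [Fintype.sum_sum_type, ← Finset.sum_add_distrib] at hE
  have hi : ∀ i, ‖J (x i (J ζ)) - star (x i) ζ‖ ^ 2 ≤ 2 * (‖(L (.inl i) - conjBy J (L (.inl i))) ζ‖ ^ 2
      + ‖(L (.inr i) - conjBy J (L (.inr i))) ζ‖ ^ 2) := by
    intro i
    have e1 : J (x i (J ζ)) - star (x i) ζ = -((L (.inl i) - conjBy J (L (.inl i))) ζ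
        - Complex.I • (L (.inr i) - conjBy J (L (.inr i))) ζ) := by
      have hs' : star (x i) = b i - Complex.I • b' i := by
        conv_lhs => rw [hxb i]
        rw [star_add, show star (b i) = b i from (hLs (.inl i)).star_eq, star_smul,
          show star (b' i) = b' i from (hLs (.inr i)).star_eq]
        simp [sub_eq_add_neg]
      rw [hs']
      conv_lhs => rw [hxb i]
      simp [L, conjBy_apply, smul_sub, LinearIsometryEquiv.map_smulₛₗ]
      abel
    rw [e1, norm_neg]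
    refine (pow_le_pow_left₀ (norm_nonneg _) (norm_sub_le _ _) 2).trans ?_
    rw [norm_smul, Complex.norm_I, one_mul]
    exact add_sq_le
  calc _ ≤ s * ∑ i, 2 * (‖(L (.inl i) - conjBy J (L (.inl i))) ζ‖ ^ 2
        + ‖(L (.inr i) - conjBy J (L (.inr i))) ζ‖ ^ 2) := by
        gcongr with i; exact hi i
    _ ≤ _ := by rw [← Finset.mul_sum]; nlinarith

/-- The test vector of an element. -/
noncomputable def wv (J : H ≃ₗᵢ⋆[ℂ] H) (ξ : H) (x : H →L[ℂ] H) : H :=
  J (star x (x ξ)) - x (J (x ξ))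

/-- An element of `(1 - p) M p` that nearly commutes with `ξ`. -/
def IsMove (M : VonNeumannAlgebra H) (J : H ≃ₗᵢ⋆[ℂ] H) (ξ : H) (p : H →L[ℂ] H) (b : ℝ)
    (x : H →L[ℂ] H) : Prop :=
  x ∈ M ∧ (1 - p) * x * p = x ∧ ‖cm J ξ x‖ ≤ b * ‖x ξ‖

/-- The convex set spanned by the normalised test vectors. -/
def moves (M : VonNeumannAlgebra H) (J : H ≃ₗᵢ⋆[ℂ] H) (ξ : H) (p : H →L[ℂ] H) (b : ℝ) : Set H :=
  {w | ∃ (ι : Type) (_ : Fintype ι) (x : ι → H →L[ℂ] H),
    (∀ i, IsMove M J ξ p b (x i)) ∧ ∑ i, ‖x i ξ‖ ^ 2 = 1 ∧ ∑ i, wv J ξ (x i) = w}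

theorem inner_wv (hJ : ∀ v, J (J v) = v) (x : H →L[ℂ] H) (v : H) :
    ⟪wv J ξ x, v⟫_ℂ = ⟪J (x ξ), J (x (J v)) - star x v⟫_ℂ := by
  rw [wv, inner_sub_left, inner_sub_right, inner_map_map']
  congr 1
  · rw [← inner_map_map' J, hJ]
    simp only [ContinuousLinearMap.star_eq_adjoint, ContinuousLinearMap.adjoint_inner_right]
  · rw [ContinuousLinearMap.star_eq_adjoint, ContinuousLinearMap.adjoint_inner_right]

theorem IsMove.smul {p x : H →L[ℂ] H} {b : ℝ} (hx : IsMove M J ξ p b x) (t : ℝ) :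
    IsMove M J ξ p b ((t : ℂ) • x) := by
  refine ⟨smul_mem_vn _ hx.1, by rw [mul_smul_comm, smul_mul_assoc, hx.2.1], ?_⟩
  have e : cm J ξ ((t : ℂ) • x) = (t : ℂ) • cm J ξ x := by
    simp only [cm, star_smul, smul_apply, Complex.star_def, Complex.conj_ofReal,
      LinearIsometryEquiv.map_smulₛₗ, smul_sub]
  rw [e, smul_apply, norm_smul, norm_smul, mul_left_comm]
  exact mul_le_mul_of_nonneg_left hx.2.2 (norm_nonneg _)

theorem wv_smul (t : ℝ) (x : H →L[ℂ] H) : wv J ξ ((t : ℂ) • x) = ((t ^ 2 : ℝ) : ℂ) • wv J ξ x := by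
  simp only [wv, star_smul, smul_apply, Complex.star_def, Complex.conj_ofReal,
    LinearIsometryEquiv.map_smulₛₗ, map_smul, smul_smul, smul_sub, Complex.ofReal_pow, map_pow, ← pow_two]

theorem convex_moves {p : H →L[ℂ] H} {b : ℝ} : Convex ℝ (moves M J ξ p b) := by
  rintro _ ⟨ι, hι, x, hx, hx1, rfl⟩ _ ⟨κ, hκ, y, hy, hy1, rfl⟩ a c ha hc hac
  refine ⟨ι ⊕ κ, inferInstance, Sum.elim (fun i => ((Real.sqrt a : ℝ) : ℂ) • x i)
    (fun i => ((Real.sqrt c : ℝ) : ℂ) • y i), ?_, ?_, ?_⟩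
  · rintro (i | i)
    · exact (hx i).smul _
    · exact (hy i).smul _
  · simp only [Fintype.sum_sum_type, Sum.elim_inl, Sum.elim_inr, smul_apply, norm_smul,
      Complex.norm_real, Real.norm_eq_abs, mul_pow, sq_abs, Real.sq_sqrt ha, Real.sq_sqrt hc,
      ← Finset.mul_sum, hx1, hy1, mul_one, hac]
  · simp only [Fintype.sum_sum_type, Sum.elim_inl, Sum.elim_inr, wv_smul, Real.sq_sqrt ha,
      Real.sq_sqrt hc]
    simp only [Complex.coe_smul, ← Finset.smul_sum]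

theorem IsMove.conj_U (hd : StdData M ξ R J U) {p x : H →L[ℂ] H} {b : ℝ} (hp : IsCen M J ξ p)
    (hx : IsMove M J ξ p b x) (t : ℝ) :
    IsMove M J ξ p b (U t * x * U (-t)) ∧ (U t * x * U (-t)) ξ = U t (x ξ) ∧
      wv J ξ (U t * x * U (-t)) = U t (wv J ξ x) := by
  have h := hd.mod
  have hs : star (U t * x * U (-t)) = U t * star x * U (-t) := by
    rw [star_mul, star_mul, h.U_star, h.U_star, neg_neg, mul_assoc]
  have hξ : (U t * x * U (-t)) ξ = U t (x ξ) := by rw [apply_mul, apply_mul, h.U_xi]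
  have hpc : ∀ s, Commute (U s) (1 - p) := fun s =>
    (Commute.one_right _).sub_right (hp.U_comm hd s)
  refine ⟨⟨h.U_mem t x hx.1, ?_, ?_⟩, hξ, ?_⟩
  · calc (1 - p) * (U t * x * U (-t)) * p
        = (1 - p) * U t * x * (U (-t) * p) := by simp only [mul_assoc]
      _ = U t * ((1 - p) * x * p) * U (-t) := by
        rw [← (hpc t).eq, hp.U_comm hd (-t)]; simp only [mul_assoc]
      _ = _ := by rw [hx.2.1]
  · have e : cm J ξ (U t * x * U (-t)) = U t (cm J ξ x) := by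
      simp only [cm, hs, apply_mul, h.U_xi, h.U_J, map_sub]
    rw [e, hξ, norm_U_apply h, norm_U_apply h]
    exact hx.2.2
  · have hback : ∀ v, U (-t) (U t v) = v := fun v => by
      rw [← apply_mul, U_neg_mul h, one_apply_eq_self]
    simp only [wv, hξ]
    rw [hs]
    simp only [apply_mul, hback, map_sub, h.U_J]

/-- The test vectors of nearly commuting elements are long. -/
theorem norm_moves_large (hd : StdData M ξ R J U) {p : H →L[ℂ] H} (hp : IsCen M J ξ p)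
    (hcomm : VP132.Fixed.Comm M ξ J p) {m : ℝ} (hm : 0 < m) :
    ∃ b : ℝ, 0 < b ∧ b ≤ 1 ∧ ∀ w ∈ moves M J ξ p b, m ≤ ‖w‖ := by
  obtain ⟨c, hc, hwalk⟩ := walk_family hd.mod hp.1 hcomm (e := 1 / (2 * m)) (by positivity)
  refine ⟨min 1 (Real.sqrt c / 64), by positivity, min_le_left _ _, ?_⟩
  rintro w ⟨ι, hι, x, hx, hx1, rfl⟩
  have hJ := hd.mod.J_J
  have hb : (min 1 (Real.sqrt c / 64)) ^ 2 ≤ c / 4096 := by
    refine (pow_le_pow_left₀ (by positivity) (min_le_right _ _) 2).trans_eq ?_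
    rw [div_pow, Real.sq_sqrt hc.le]; norm_num
  obtain ⟨ζ, hζ, hE⟩ := hwalk ι x (fun i => (hx i).1) 4096 (by norm_num) (by
    calc 4096 * ∑ i, ‖cm J ξ (x i)‖ ^ 2
        ≤ 4096 * ∑ i, c / 4096 * ‖x i ξ‖ ^ 2 := by
          gcongr with i
          refine (pow_le_pow_left₀ (norm_nonneg _) (hx i).2.2 2).trans ?_
          rw [mul_pow]; gcongr
      _ = c := by rw [← Finset.mul_sum, hx1]; ring)
  have hpair : ∀ i, ⟪wv J ξ (x i), p ξ⟫_ℂ = ((‖x i ξ‖ ^ 2 : ℝ) : ℂ) := by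
    intro i
    have h1 : x i * p = x i := by
      conv_lhs => rw [← (hx i).2.1]
      rw [mul_assoc, hp.2.1.isIdempotentElem.eq, (hx i).2.1]
    have h2 : star (x i) * p = 0 := by
      conv_lhs => rw [← (hx i).2.1]
      simp only [star_mul, star_sub, star_one, hp.2.1.isSelfAdjoint.star_eq, mul_assoc, sub_mul,
        one_mul, hp.2.1.isIdempotentElem.eq, sub_self, mul_zero]
    rw [inner_wv hJ, hp.2.2, ← apply_mul, h1, ← apply_mul, h2, zero_apply, sub_zero,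
      inner_map_map', inner_self_eq_norm_sq_to_K]
    norm_cast
  have hp1 : ‖p ξ‖ ≤ 1 := by
    have := p.le_of_opNorm_le hp.2.1.norm_le ξ
    rwa [one_mul, hd.std.1] at this
  have e1 : ⟪∑ i, wv J ξ (x i), p ξ⟫_ℂ = 1 := by
    rw [sum_inner, Finset.sum_congr rfl fun i _ => hpair i, ← Complex.ofReal_sum, hx1,
      Complex.ofReal_one]
  have e2 : ‖⟪∑ i, wv J ξ (x i), ζ⟫_ℂ‖ ≤ 1 / 2 - 1 / 8 := by
    rw [sum_inner]
    refine (norm_sum_le _ _).trans ?_
    have hi : ∀ i, ‖⟪wv J ξ (x i), ζ⟫_ℂ‖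
        ≤ ‖x i ξ‖ ^ 2 / 4 + ‖J (x i (J ζ)) - star (x i) ζ‖ ^ 2 := by
      intro i
      rw [inner_wv hJ]
      refine (norm_inner_le_norm _ _).trans ?_
      rw [J.norm_map]
      nlinarith [sq_nonneg (‖x i ξ‖ / 2 - ‖J (x i (J ζ)) - star (x i) ζ‖)]
    refine (Finset.sum_le_sum fun i _ => hi i).trans ?_
    rw [Finset.sum_add_distrib, ← Finset.sum_div, hx1]
    nlinarith [norm_nonneg (p ξ)]
  have e3 := norm_inner_le_norm (𝕜 := ℂ) (∑ i, wv J ξ (x i)) (p ξ - ζ)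
  rw [inner_sub_right, e1] at e3
  rw [norm_sub_rev] at hζ
  have e4 := norm_le_norm_add_norm_sub' (1 : ℂ) (⟪∑ i, wv J ξ (x i), ζ⟫_ℂ)
  rw [norm_one] at e4
  have e5 : 1 / 2 ≤ ‖∑ i, wv J ξ (x i)‖ * (1 / (2 * m)) := by
    nlinarith [norm_nonneg (∑ i, wv J ξ (x i)), norm_nonneg (p ξ - ζ)]
  rw [mul_one_div, div_le_div_iff₀ (by norm_num) (by positivity)] at e5
  linarith

section real

attribute [local instance] InnerProductSpace.complexToReal

/-- A closed convex set has a vector of least norm. -/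
theorem exists_least {K : Set H} (hne : K.Nonempty) (hcl : IsClosed K) (hconv : Convex ℝ K) :
    ∃ v ∈ K, ∀ w ∈ K, ‖v‖ ^ 2 ≤ (⟪v, w⟫_ℂ).re := by
  obtain ⟨v, hvK, hv⟩ := exists_norm_eq_iInf_of_complete_convex hne hcl.isComplete hconv (0 : H)
  refine ⟨v, hvK, fun w hw => ?_⟩
  have h1 : (⟪(0 : H) - v, w - v⟫_ℂ).re ≤ 0 :=
    (norm_eq_iInf_iff_real_inner_le_zero hconv hvK).1 hv w hw
  rw [zero_sub, inner_neg_left, inner_sub_right, Complex.neg_re, Complex.sub_re,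
    inner_self_eq_norm_sq_to_K] at h1
  simp [← Complex.ofReal_pow] at h1
  linarith

end real

/-- The vector of least norm. -/
theorem exists_min_vector (hd : StdData M ξ R J U) {p : H →L[ℂ] H} (hp : IsCen M J ξ p) {b : ℝ}
    (hne : (moves M J ξ p b).Nonempty) {m : ℝ} (hlarge : ∀ w ∈ moves M J ξ p b, m ≤ ‖w‖) :
    ∃ v : H, (∀ t, U t v = v) ∧ m ≤ ‖v‖ ∧
      ∀ w ∈ moves M J ξ p b, ‖v‖ ^ 2 ≤ (⟪v, w⟫_ℂ).re := by
  obtain ⟨v, hvK, hmin'⟩ := exists_least (K := closure (moves M J ξ p b)) hne.closure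
    isClosed_closure convex_moves.closure
  refine ⟨v, fun t => ?_, closure_minimal hlarge (isClosed_le continuous_const continuous_norm) hvK,
    fun w hw => hmin' w (subset_closure hw)⟩
  have hmaps : Set.MapsTo (U t) (moves M J ξ p b) (moves M J ξ p b) := by
    rintro _ ⟨ι, hι, x, hx, hx1, rfl⟩
    refine ⟨ι, hι, fun i => U t * x i * U (-t), fun i => ((hx i).conj_U hd hp t).1, ?_, ?_⟩
    · simp only [fun i => ((hx i).conj_U hd hp t).2.1, norm_U_apply hd.mod, hx1]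
    · simp only [fun i => ((hx i).conj_U hd hp t).2.2, map_sum]
  have h1 := hmin' _ (hmaps.closure (U t).continuous hvK)
  have h2 := norm_sub_sq (𝕜 := ℂ) v (U t v)
  rw [norm_U_apply hd.mod, RCLike.re_to_complex] at h2
  have h3 : ‖v - U t v‖ = 0 := by nlinarith [norm_nonneg (v - U t v)]
  exact (sub_eq_zero.1 (norm_eq_zero.1 h3)).symm

/-- No projection other than `0` and `1` commutes with `ξ` and has a modulus. -/
theorem projSpec_of_typeThree (hd : StdData M ξ R J U) (hIII : IsTypeIIIOne M) :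
    VP132.ProjSpec M ξ J := by
  intro p hp hcomm
  by_contra hcon
  obtain ⟨hp0, hp1⟩ := not_or.1 hcon
  obtain ⟨q, hq⟩ : ∃ q, q = 1 - p := ⟨_, rfl⟩
  have hq0 : q ≠ 0 := fun h => hp1 (sub_eq_zero.1 (hq ▸ h)).symm
  have hqc : IsCen M J ξ q := hq ▸ ⟨sub_mem (one_mem _) hp.1, hp.2.1.one_sub, by
    rw [sub_apply, one_apply_eq_self, map_sub, hp.2.2, hd.mod.J_xi]⟩
  obtain ⟨C₁, hC₁, hcorner₁⟩ := exists_bounded_corner hd hp hp0
  obtain ⟨C₂, hC₂, hcorner₂⟩ := exists_bounded_corner hd hqc hq0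
  obtain ⟨b, hb, hb1, hlarge⟩ :=
    norm_moves_large hd hp hcomm (m := C₁ + 2 * C₂ + 1) (by positivity)
  -- a normalised move between given corners
  have hmove : ∀ e f, IsCen M J ξ e → IsCen M J ξ f → e ≠ 0 → f ≠ 0 → p * e = e → q * f = f →
      ∃ x, IsMove M J ξ p b x ∧ ‖x ξ‖ = 1 ∧ wv J ξ x ∈ moves M J ξ p b ∧
        x * e = x ∧ star x * f = star x := by
    intro e f he hf he0 hf0 hpe hqf
    obtain ⟨x, hxM, hxef, hx0, hxb⟩ := exists_gap hd hIII he hf he0 hf0 hb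
    have hxe : x * e = x := by
      conv_lhs => rw [← hxef]
      rw [mul_assoc, he.2.1.isIdempotentElem.eq, hxef]
    have hfx : f * x = x := by
      conv_lhs => rw [← hxef]
      rw [← mul_assoc, ← mul_assoc, hf.2.1.isIdempotentElem.eq, hxef]
    have hep : e * p = e := by
      have := congrArg star hpe
      rwa [star_mul, he.2.1.isSelfAdjoint.star_eq, hp.2.1.isSelfAdjoint.star_eq] at this
    have hx : IsMove M J ξ p b x := by
      refine ⟨hxM, ?_, hxb⟩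
      rw [← hq]
      calc q * x * p = q * (f * x) * p := by rw [hfx]
        _ = q * f * (x * e) * p := by rw [hxe, mul_assoc q f x]
        _ = f * x * (e * p) := by rw [hqf]; simp only [mul_assoc]
        _ = x := by rw [hep, hxef]
    have hn : 0 < ‖x ξ‖ := norm_pos_iff.2 hx0
    obtain ⟨y, hy⟩ : ∃ y, y = ((‖x ξ‖⁻¹ : ℝ) : ℂ) • x := ⟨_, rfl⟩
    have hy1 : ‖y ξ‖ = 1 := by
      rw [hy, smul_apply, norm_smul, Complex.norm_real, Real.norm_of_nonneg (by positivity),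
        inv_mul_cancel₀ hn.ne']
    refine ⟨y, hy ▸ hx.smul _, hy1, ⟨Unit, inferInstance, fun _ => y, fun _ => hy ▸ hx.smul _,
      by simp [hy1], by simp⟩, by rw [hy, smul_mul_assoc, hxe], ?_⟩
    have := congrArg star hfx
    rw [star_mul, hf.2.1.isSelfAdjoint.star_eq] at this
    rw [hy, star_smul, smul_mul_assoc, this]
  obtain ⟨x₀, -, -, hmem, -, -⟩ :=
    hmove p q hp hqc hp0 hq0 hp.2.1.isIdempotentElem.eq hqc.2.1.isIdempotentElem.eq
  obtain ⟨v, hvU, hvm, hvmin⟩ := exists_min_vector hd hp ⟨_, hmem⟩ hlarge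
  obtain ⟨e, he, he0, hpe, heb⟩ := hcorner₁ (J v) fun t => by rw [← hd.mod.U_J, hvU]
  obtain ⟨f, hf, hf0, hqf, hfb⟩ := hcorner₂ v hvU
  obtain ⟨x, hx, hx1, hxm, hxe, hxf⟩ := hmove e f he hf he0 hf0 hpe hqf
  have h1 := hvmin _ hxm
  rw [← inner_conj_symm, Complex.conj_re, inner_wv hd.mod.J_J] at h1
  have h2 := (Complex.re_le_norm _).trans (norm_inner_le_norm (𝕜 := ℂ) (J (x ξ))
    (J (x (J v)) - star x v))
  rw [J.norm_map, hx1, one_mul] at h2
  have h3 : ‖x (J v)‖ ≤ C₁ * ‖v‖ := by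
    have := heb x hx.1
    rwa [← apply_mul, hxe, J.norm_map, hx1, mul_one] at this
  have h4 : ‖star x v‖ ≤ C₂ * ‖v‖ * 2 := by
    have := hfb (star x) (star_mem hx.1)
    rw [← apply_mul, hxf] at this
    refine this.trans (mul_le_mul_of_nonneg_left ?_ (by positivity))
    have h5 := hx.2.2
    rw [cm, hx1, mul_one] at h5
    have h6 := norm_le_norm_add_norm_sub (x ξ) (J (star x ξ))
    rw [J.norm_map, hx1] at h6
    linarith
  have h7 := norm_sub_le (J (x (J v))) (star x v)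
  rw [J.norm_map] at h7
  nlinarith [norm_nonneg v]

/-- In a type III₁ factor the fixed elements with moduli are scalars. -/
theorem fixedSpec_of_typeThree (hd : StdData M ξ R J U) (hIII : IsTypeIIIOne M) :
    VP132.FixedSpec M ξ R J :=
  VP132.fixedSpec_of_proj hd.mod (VP132.rowSpec hd.mod) (projSpec_of_typeThree hd hIII)

end Vale.Agent.P132.TypeThree
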