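import Vale.Agent.P132.TypeThree.Gap

/-!
P132: the hypothesis `HasFullSpectrum` read on the operator `R = 2 / (1 + Δ)`: for a type III
algebra it says exactly that `R` has spectrum `[0, 2]`, that is `sp Δ = [0, ∞)`, at every standard
vector.
-/

open scoped InnerProductSpace ComplexConjugate Topology
open Filter

namespace Vale.Agent.P132.TypeThree

open Vale.Agent.P132.Tomita Vale.Agent.P104.Continuous

variable {H : Type} [NormedAddCommGroup H] [InnerProductSpace ℂ H] [CompleteSpace H]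
variable {M : VonNeumannAlgebra H} {η : H} {R : H →L[ℂ] H} {J : H ≃ₗᵢ⋆[ℂ] H}
  {U : ℝ → (H →L[ℂ] H)}

/-- Full spectrum puts `[0, 2]` in the spectrum of `R`. -/
theorem spectrum_eq_of_fullSpectrum (hd : StdData M η R J U) (h3 : IsTypeThree M)
    (hS : HasFullSpectrum M) : spectrum ℝ R = Set.Icc 0 2 := by
  refine Set.Subset.antisymm hd.mod.R_spec ?_
  rw [← closure_Ioo (show (0 : ℝ) ≠ 2 by norm_num)]
  refine closure_minimal (fun r0 hr0 => ?_) (spectrum.isClosed R)
  by_contra hnot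
  obtain ⟨hr1, hr2⟩ := hr0
  obtain ⟨l, hl⟩ : ∃ l : ℝ, l = (2 - r0) / r0 := ⟨_, rfl⟩
  have hl0 : 0 < l := hl ▸ div_pos (by linarith) hr1
  obtain ⟨g, hg⟩ : ∃ g : ℝ → ℝ, g = fun r => (2 - r - l * r) * (2 - r - l * r) := ⟨_, rfl⟩
  have hgc : Continuous g := hg ▸ by fun_prop
  have hne : η ≠ 0 := fun h0 => by simpa [h0] using hd.std.1
  have : Nontrivial H := ⟨⟨η, 0, hne⟩⟩
  obtain ⟨s, hs, hmin⟩ := (spectrum.isCompact (𝕜 := ℝ) R).exists_isMinOn
    (ContinuousFunctionalCalculus.spectrum_nonempty R hd.mod.R_sa) hgc.continuousOn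
  have hpos : 0 < g s := by
    rw [hg]
    refine mul_self_pos.2 fun h0 => hnot ?_
    have : s = r0 := by
      rw [hl] at h0
      field_simp at h0
      nlinarith
    rwa [← this]
  have h1cen : IsCen M J η 1 := ⟨one_mem M, IsStarProjection.one _, by simpa using hd.mod.J_xi⟩
  obtain ⟨X, -, -, -, hXne, hXb⟩ :=
    exists_corner_eigen hd h3 hS h1cen one_ne_zero hl0 (show 0 < Real.sqrt (g s / 2) by positivity)
  obtain ⟨L, hL⟩ : ∃ L : H →L[ℂ] H, L = cfc (fun r : ℝ => 2 - r - l * r) R := ⟨_, rfl⟩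
  have hLv : L (X η) = (2 : ℂ) • X η - R (X η) - (l : ℂ) • R (X η) := by
    rw [hL, cfc_sub (a := R) (fun r : ℝ => 2 - r) (fun r => l * r) (by fun_prop) (by fun_prop),
      cfc_sub (fun _ : ℝ => (2 : ℝ)) (fun r => r) R, cfc_const (2 : ℝ) R hd.mod.R_sa,
      cfc_const_mul l (fun r : ℝ => r) R, cfc_id' ℝ R hd.mod.R_sa, map_ofNat, sub_apply, sub_apply,
      smul_apply]
    simp [show (2 : H →L[ℂ] H) = 1 + 1 by norm_num, two_smul, ← Complex.coe_smul]
  have hle : cfc (fun _ : ℝ => g s) R ≤ cfc g R :=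
    cfc_mono (fun r hr => hmin hr) continuousOn_const hgc.continuousOn
  have hLL : cfc g R = L * L := by
    rw [hL, hg, cfc_mul (fun r : ℝ => 2 - r - l * r) (fun r => 2 - r - l * r) R
      (by fun_prop) (by fun_prop)]
  have hLs : IsSelfAdjoint L := hL ▸ cfc_predicate _ R
  have h1 := ((ContinuousLinearMap.le_def _ _).1 hle).re_inner_nonneg_right (X η)
  rw [hLL, cfc_const (g s) R hd.mod.R_sa, sub_apply, apply_mul, inner_sub_right,
    Algebra.algebraMap_eq_smul_one, smul_apply, one_apply_eq_self, ← Complex.coe_smul,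
    inner_smul_right, ← inner_proj hLs, hLv, map_sub, inner_self_eq_norm_sq_to_K,
    inner_self_eq_norm_sq_to_K] at h1
  simp [← Complex.ofReal_pow] at h1
  obtain ⟨a, ha⟩ : ∃ a : ℝ, a = ‖(2 : ℂ) • X η - R (X η) - (l : ℂ) • R (X η)‖ := ⟨_, rfl⟩
  have h2 := pow_le_pow_left₀ (norm_nonneg _) hXb 2
  rw [mul_pow, Real.sq_sqrt (by positivity)] at h2
  have h3 : 0 < g s * ‖X η‖ ^ 2 := mul_pos hpos (pow_pos (norm_pos_iff.2 hXne) 2)
  simp only [← Complex.coe_smul] at h1
  linarith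

/-- Conversely, spectrum `[0, 2]` of `R` at every standard vector gives full spectrum. -/
theorem hasFullSpectrum_of_spectrum
    (h : ∀ η, VP132.IsStandardVector H M η → ∃ R J U, StdData M η R J U ∧
      spectrum ℝ R = Set.Icc 0 2) : HasFullSpectrum M := by
  intro η hη l hl ε hε
  obtain ⟨R, J, U, hd, hspec⟩ := h η hη
  obtain ⟨p, hp⟩ : ∃ p : ℝ, p = Real.log l := ⟨_, rfl⟩
  obtain ⟨μ, hμ⟩ : ∃ μ : ℝ, μ = Real.exp (p / 2) := ⟨_, rfl⟩
  have hμ2 : μ * μ = l := by rw [hμ, ← Real.exp_add, add_halves, hp, Real.exp_log hl]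
  have hμ0 : 0 < μ := hμ ▸ Real.exp_pos _
  obtain ⟨τ, hτ⟩ : ∃ τ : ℝ, τ = ε / (1 + μ) := ⟨_, rfl⟩
  have hτ0 : 0 < τ := hτ ▸ by positivity
  obtain ⟨d, hd0, hclose⟩ : ∃ d : ℝ, 0 < d ∧ ∀ t, |t - p| ≤ d + d → |Real.exp (t / 2) - μ| ≤ τ := by
    have hc : Continuous fun t : ℝ => |Real.exp (t / 2) - μ| := by fun_prop
    obtain ⟨δ, hδ, hball⟩ := Metric.eventually_nhds_iff.1
      ((hc.tendsto p).eventually_lt (tendsto_const_nhds (x := τ)) (by simp [hμ, hτ0]))
    refine ⟨δ / 3, by positivity, fun t ht => (hball ?_).le⟩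
    rw [Real.dist_eq]; linarith
  obtain ⟨b, hb⟩ : ∃ b : ℝ → ℝ, b = ⇑(bump p d hd0) := ⟨_, rfl⟩
  have hb2 : ContDiff ℝ 2 b := hb ▸ (bump p d hd0).contDiff
  have hbc : HasCompactSupport b := hb ▸ (bump p d hd0).hasCompactSupport
  obtain ⟨b', hb'⟩ : ∃ b' : ℝ → ℝ, b' = fun t => b t * Real.exp (t / 2) := ⟨_, rfl⟩
  have hb2' : ContDiff ℝ 2 b' := hb' ▸ hb2.mul (by fun_prop)
  have hbc' : HasCompactSupport b' := hb' ▸ hbc.mul_right
  obtain ⟨q, hq⟩ : ∃ q : ℝ → ℝ,
      q = fun t => bump p (d + d) (by linarith) t * (Real.exp (t / 2) - μ) := ⟨_, rfl⟩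
  have hqc : Continuous q := hq ▸ (bump p (d + d) (by linarith)).continuous.mul (by fun_prop)
  have hqs : HasCompactSupport q := hq ▸ (bump p (d + d) (by linarith)).hasCompactSupport.mul_right
  have hqb : ∀ t, |q t| ≤ τ := by
    intro t
    rw [hq, abs_mul, abs_of_nonneg (bump p (d + d) (by linarith)).nonneg]
    rcases eq_or_ne (bump p (d + d) (by linarith : 0 < d + d) t) 0 with h0 | h0
    · rw [h0, zero_mul]; exact hτ0.le
    · have ht : t ∈ Function.support (bump p (d + d) (by linarith : 0 < d + d)) := h0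
      rw [ContDiffBump.support_eq, Metric.mem_ball, Real.dist_eq] at ht
      exact (mul_le_of_le_one_left (abs_nonneg _) (bump p (d + d) _).le_one).trans
        (hclose t ht.le)
  have hid : ∀ t, b' t - μ * b t = q t * b t := by
    intro t
    rw [hb', hq]
    rcases eq_or_ne (b t) 0 with h0 | h0
    · simp [h0]
    · have ht : t ∈ Function.support b := h0
      rw [hb, ContDiffBump.support_eq, Metric.mem_ball, Real.dist_eq] at ht
      change |t - p| < d at ht
      have h1 : bump p (d + d) (by linarith : 0 < d + d) t = 1 := by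
        refine (bump p (d + d) _).one_of_mem_closedBall ?_
        rw [Metric.mem_closedBall, Real.dist_eq]
        show |t - p| ≤ (d + d) / 2
        linarith
      simp only [h1]
      ring
  have hbne : cfc (cut b) R ≠ 0 := by
    have : Nontrivial H := ⟨⟨η, 0, fun h0 => by simpa [h0] using hη.1⟩⟩
    intro h0
    have h1 := norm_apply_le_norm_cfc (cut b) R (x := 2 / (1 + l))
      (by rw [hspec]; exact ⟨by positivity, by rw [div_le_iff₀ (by positivity)]; nlinarith⟩)
      (continuous_cut hb2.continuous hbc).continuousOn hd.mod.R_sa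
    have hr : (0 : ℝ) < 2 / (1 + l) ∧ 2 / (1 + l) < 2 :=
      ⟨by positivity, by rw [div_lt_iff₀ (by positivity)]; nlinarith⟩
    have hlg : lg (2 / (1 + l)) = p := by
      refine Real.exp_injective ?_
      rw [exp_lg hr.1 hr.2, hp, Real.exp_log hl]
      field_simp
      ring
    rw [h0, norm_zero, cut, if_pos hr, hlg, hb] at h1
    rw [(bump p d hd0).one_of_mem_closedBall (Metric.mem_closedBall_self
      (show (0 : ℝ) ≤ d / 2 by positivity))] at h1
    norm_num at h1
  obtain ⟨x0, hx0, hv⟩ : ∃ x0 ∈ M, cfc (cut b) R (x0 η) ≠ 0 := by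
    by_contra hn
    refine hbne (DFunLike.coe_injective
      (Continuous.ext_on hη.2.1 (cfc (cut b) R).continuous continuous_const ?_))
    rintro _ ⟨x, hx, rfl⟩
    show cfc (cut b) R (x η) = 0
    exact not_not.1 fun h0 => hn ⟨x, hx, h0⟩
  obtain ⟨x, hxM, hxη, -⟩ := exists_smear hd.mod hx0 hb2 hbc
  have hZ : J (star x η) = cfc (cut b') R (x0 η) := by
    refine sub_eq_zero.1 (opT_injective hd.mod ?_)
    rw [map_sub, sub_eq_zero, ← graph_one hd.mod hxM, hxη]
    exact two_sub_cut hd.mod hb2.continuous hbc hb2'.continuous hbc' (fun t => by rw [hb']) _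
  have hE : ‖J (star x η) - (μ : ℂ) • x η‖ ≤ τ * ‖x η‖ := by
    have e : cfc (cut b') R - μ • cfc (cut b) R = cfc (cut q) R * cfc (cut b) R := by
      have c1 := continuous_cut hb2.continuous hbc
      have c2 := continuous_cut hb2'.continuous hbc'
      have c3 := continuous_cut hqc hqs
      rw [← cfc_const_mul μ (cut b) R c1.continuousOn,
        ← cfc_sub (a := R) (cut b') (fun r => μ * cut b r) c2.continuousOn
          (continuousOn_const.mul c1.continuousOn),
        ← cfc_mul (cut q) (cut b) R c3.continuousOn c1.continuousOn]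
      refine cfc_congr fun r _ => ?_
      by_cases hr : 0 < r ∧ r < 2
      · simp only [cut, if_pos hr, hid]
      · simp [cut, hr]
    rw [hZ, hxη, Complex.coe_smul, ← smul_apply, ← sub_apply, e, apply_mul]
    refine (cfc (cut q) R).le_of_opNorm_le (norm_cfc_le hτ0.le fun r _ => ?_) _
    rw [Real.norm_eq_abs, cut]
    split
    · exact hqb _
    · simpa using hτ0.le
  refine ⟨x, hxM, hxη ▸ hv, fun y hy => ?_⟩
  obtain ⟨E, hEdef⟩ : ∃ E : H, E = J (star x η) - (μ : ℂ) • x η := ⟨_, rfl⟩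
  rw [← hEdef] at hE
  have hsplit : J (star x η) = E + (μ : ℂ) • x η := by rw [hEdef]; abel
  have hherm : ⟪x η, J (star y η)⟫_ℂ = ⟪J (star x η), y η⟫_ℂ := by
    rw [← form_conj hd.mod hy hxM, inner_conj_symm]
  have key : ⟪star y η, star x η⟫_ℂ - (l : ℂ) * ⟪x η, y η⟫_ℂ
      = ⟪E, J (star y η)⟫_ℂ + (μ : ℂ) * ⟪E, y η⟫_ℂ := by
    rw [← inner_map_map' J (star x η) (star y η)]
    conv_lhs => rw [hsplit, inner_add_left, inner_smul_left, Complex.conj_ofReal, hherm, hsplit,
      inner_add_left, inner_smul_left, Complex.conj_ofReal, ← hμ2, Complex.ofReal_mul]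
    ring
  rw [key]
  have hετ : τ * (1 + μ) = ε := by rw [hτ]; field_simp
  calc ‖⟪E, J (star y η)⟫_ℂ + (μ : ℂ) * ⟪E, y η⟫_ℂ‖
      ≤ τ * ‖x η‖ * ‖star y η‖ + μ * (τ * ‖x η‖ * ‖y η‖) := by
        refine (norm_add_le _ _).trans (add_le_add ?_ ?_)
        · refine (norm_inner_le_norm _ _).trans ?_
          rw [J.norm_map]
          exact mul_le_mul_of_nonneg_right hE (norm_nonneg _)
        · rw [norm_mul, Complex.norm_real, Real.norm_of_nonneg hμ0.le]
          exact mul_le_mul_of_nonneg_left ((norm_inner_le_norm _ _).trans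
            (mul_le_mul_of_nonneg_right hE (norm_nonneg _))) hμ0.le
    _ ≤ ε * ‖x η‖ * (‖y η‖ + ‖star y η‖) := by
        rw [← hετ]
        nlinarith [mul_nonneg (mul_nonneg hτ0.le (norm_nonneg (x η))) (norm_nonneg (y η)),
          mul_nonneg (mul_nonneg hτ0.le (norm_nonneg (x η))) (norm_nonneg (star y η))]

end Vale.Agent.P132.TypeThree
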