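import Vale.Agent.P132.TypeThree.Main
import Vale.Agent.P132.TypeThree.Minimal

/-!
P132: the bicentralizer is trivial for a factor of type III whose modular operators all have full
spectrum.
-/

open Vale.Agent.P132.TypeThree (IsTypeIIIOne projSpec_of_typeThree)

namespace VP132

/-- The bicentralizer is trivial for every type III_1 factor, the type given through the spectra of
the modular operators. -/
def TargetSpectrum : Prop :=
  ∀ (H : Type) [NormedAddCommGroup H] [InnerProductSpace ℂ H] [CompleteSpace H]
    (M : VonNeumannAlgebra H) (ξ : H),
    IsStandardVector H M ξ → IsTypeIIIOne M →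
      ∀ a, InBicentralizer H M ξ a → ∃ c : ℂ, a = c • 1

/-- The bicentralizer is trivial. -/
theorem targetSpectrum : TargetSpectrum := by
  intro H _ _ _ M ξ hs hIII a ha
  exact scalar_of_projSpec' hs (fun _ _ _ hd => projSpec_of_typeThree hd hIII) ha

end VP132
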