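import Vale.Agent.P132.TypeThree.Band

/-!
P132: the full spectrum hypothesis inside the corner of a centralizing projection. In a type III₁
factor every corner `e M e`, `e` commuting with `η`, has elements in every band.
-/

open scoped InnerProductSpace ComplexConjugate Topology

namespace Vale.Agent.P132.TypeThree

open Vale.Agent.P132.Tomita Vale.Agent.P104.Continuous

variable {H : Type} [NormedAddCommGroup H] [InnerProductSpace ℂ H] [CompleteSpace H]
variable {M : VonNeumannAlgebra H} {η : H} {R : H →L[ℂ] H} {J : H ≃ₗᵢ⋆[ℂ] H}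
  {U : ℝ → (H →L[ℂ] H)}

theorem conjBy_mul (hJ : ∀ v, J (J v) = v) (x y : H →L[ℂ] H) :
    conjBy J (x * y) = conjBy J x * conjBy J y := by
  ext v; simp [conjBy_apply, hJ]

theorem conjBy_one (hJ : ∀ v, J (J v) = v) : conjBy J (1 : H →L[ℂ] H) = 1 := by
  ext v; simp [conjBy_apply, hJ]

/-- In the corner of a centralizing projection there are almost eigen elements for every level. -/
theorem exists_corner_eigen (hd : StdData M η R J U) (h3 : IsTypeThree M)
    (hS : HasFullSpectrum M) {e : H →L[ℂ] H} (he : IsCen M J η e) (he0 : e ≠ 0) {l : ℝ}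
    (hl : 0 < l) {ε : ℝ} (hε : 0 < ε) :
    ∃ X ∈ M, e * X = X ∧ X * e = X ∧ X η ≠ 0 ∧
      ‖(2 : ℂ) • X η - R (X η) - (l : ℂ) • R (X η)‖ ≤ ε * ‖X η‖ := by
  obtain ⟨w, hw, hww, hwe⟩ := h3.2 e he.1 he.2.1 he0
  have hJ := hd.mod.J_J
  have hwsM : star w ∈ M := star_mem hw
  have hwse : star w * e = star w := by rw [← hwe, ← mul_assoc, hww, one_mul]
  obtain ⟨V, hV⟩ : ∃ V : H →L[ℂ] H, V = w * conjBy J w := ⟨_, rfl⟩
  have hcw : ∀ x ∈ M, Commute (conjBy J w) x := fun x hx =>
    mem_iff_comm.1 hx _ (hd.mod.conj_mem w hw)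
  have hcws : ∀ x ∈ M, Commute (conjBy J (star w)) x := fun x hx =>
    mem_iff_comm.1 hx _ (hd.mod.conj_mem _ hwsM)
  have hVs : star V = star w * conjBy J (star w) := by
    rw [hV, star_mul, star_conjBy hJ, (hcws _ hwsM).eq]
  have hVV' : V * star V = e * conjBy J e := by
    rw [hVs, hV]
    calc w * conjBy J w * (star w * conjBy J (star w))
        = w * (conjBy J w * star w) * conjBy J (star w) := by simp only [mul_assoc]
      _ = w * (star w * conjBy J w) * conjBy J (star w) := by rw [(hcw _ hwsM).eq]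
      _ = (w * star w) * (conjBy J w * conjBy J (star w)) := by simp only [mul_assoc]
      _ = _ := by rw [hwe, ← conjBy_mul hJ, hwe]
  have hV'V : star V * V = 1 := by
    rw [hVs, hV]
    calc star w * conjBy J (star w) * (w * conjBy J w)
        = star w * (conjBy J (star w) * w) * conjBy J w := by simp only [mul_assoc]
      _ = star w * (w * conjBy J (star w)) * conjBy J w := by rw [(hcws _ hw).eq]
      _ = (star w * w) * (conjBy J (star w) * conjBy J w) := by simp only [mul_assoc]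
      _ = 1 := by rw [hww, ← conjBy_mul hJ, hww, one_mul, conjBy_one hJ]
  have heη : conjBy J e η = e η := by rw [conjBy_apply, hd.mod.J_xi, he.2.2]
  have hcJe : ∀ x ∈ M, ∀ v, conjBy J e (x v) = x (conjBy J e v) := fun x hx v =>
    commute_apply (hd.mod.conj_mem e he.1) hx v
  have hVVη : (V * star V) η = e η := by
    rw [hVV', apply_mul, heη, ← apply_mul e e, he.2.1.isIdempotentElem.eq]
  -- `V*` intertwines `x` with `w* x w`
  have hinter : ∀ x ∈ M, (star w * x * w) (star V η) = star V (x η) := by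
    intro x hx
    have h1 : e (conjBy J (star w) η) = conjBy J (star w) η := by
      rw [← commute_apply (hd.mod.conj_mem _ hwsM) he.1, ← heη, ← apply_mul (conjBy J (star w)),
        ← conjBy_mul hJ, hwse]
    have h2 : w (star V η) = conjBy J (star w) η := by
      rw [hVs, apply_mul, ← apply_mul w (star w), hwe, h1]
    rw [apply_mul, apply_mul, h2, hVs, apply_mul, commute_apply (hd.mod.conj_mem _ hwsM) hx]
  have hVn : ∀ v, ‖star V v‖ ≤ ‖v‖ := by
    intro v
    have h1 : ‖V‖ ≤ 1 := by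
      refine ContinuousLinearMap.opNorm_le_bound _ zero_le_one fun u => ?_
      rw [one_mul, (ContinuousLinearMap.norm_map_iff_adjoint_comp_self V).2
        (by rw [← ContinuousLinearMap.star_eq_adjoint]; exact hV'V) u]
    exact ((star V).le_of_opNorm_le (c := 1) (by rwa [norm_star]) v).trans_eq (one_mul _)
  obtain ⟨c, hc⟩ : ∃ c : ℝ, c = ‖star V η‖ := ⟨_, rfl⟩
  have hcpos : 0 < c := by
    rw [hc, norm_pos_iff]
    intro h0
    refine he0 (hd.std.2.2 e he.1 ?_)
    rw [← hVVη, apply_mul, h0, map_zero]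
  obtain ⟨ζ, hζ⟩ : ∃ ζ : H, ζ = ((c⁻¹ : ℝ) : ℂ) • star V η := ⟨_, rfl⟩
  have hζn : ‖ζ‖ = 1 := by
    rw [hζ, norm_smul, ← hc, Complex.norm_real, Real.norm_of_nonneg (inv_nonneg.2 hcpos.le),
      inv_mul_cancel₀ hcpos.ne']
  have hstd : VP132.IsStandardVector H M ζ := by
    refine ⟨hζn, ?_, ?_⟩
    · rw [Metric.dense_iff]
      intro v r hr
      obtain ⟨_, hm, x, hx, rfl⟩ := Metric.dense_iff.1 hd.std.2.1 (V v) r hr
      refine ⟨(star w * x * w) ((c : ℂ) • ζ), ?_, (c : ℂ) • (star w * x * w), smul_mem_vn _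
        (mul_mem (mul_mem hwsM hx) hw), by rw [smul_apply, map_smul]⟩
      rw [hζ, smul_smul, ← Complex.ofReal_mul, mul_inv_cancel₀ hcpos.ne', Complex.ofReal_one,
        one_smul, hinter x hx, Metric.mem_ball, dist_eq_norm]
      rw [Metric.mem_ball, dist_eq_norm] at hm
      calc ‖star V (x η) - v‖ = ‖star V (x η - V v)‖ := by
            rw [map_sub, ← apply_mul (star V) V, hV'V, one_apply_eq_self]
        _ < r := (hVn _).trans_lt hm
    · intro y hy h0
      rw [hζ, map_smul, smul_eq_zero] at h0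
      have h0' : y (star V η) = 0 := h0.resolve_left (by simp [hcpos.ne'])
      have hz : w * y * star w = 0 := by
        refine hd.std.2.2 _ (mul_mem (mul_mem hw hy) hwsM) ?_
        have h1 : star w (e η) = star w η := by rw [← apply_mul (star w) e, hwse]
        have h2 : conjBy J w (y (star V η)) = y (star w (conjBy J e η)) := by
          rw [commute_apply (hd.mod.conj_mem w hw) hy, hVs, apply_mul,
            commute_apply (hd.mod.conj_mem w hw) hwsM, ← apply_mul (conjBy J w),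
            ← conjBy_mul hJ, hwe]
        rw [h0', map_zero, heη, h1] at h2
        rw [apply_mul, apply_mul, ← h2, map_zero]
      calc y = star w * (w * y * star w) * w := by
            simp only [mul_assoc]; rw [hww, mul_one, ← mul_assoc, hww, one_mul]
        _ = 0 := by rw [hz, mul_zero, zero_mul]
  obtain ⟨x, hx, hxne, hxb⟩ := hS ζ hstd l hl (ε / (‖R‖ + ‖opT R‖ + 1)) (by positivity)
  obtain ⟨X, hX⟩ : ∃ X, X = w * x * star w := ⟨_, rfl⟩
  have hXM : X ∈ M := hX ▸ mul_mem (mul_mem hw hx) hwsM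
  have hwew : e * w = w := by rw [← hwe, mul_assoc, hww, mul_one]
  have heX : e * X = X := by rw [hX, ← mul_assoc, ← mul_assoc, hwew]
  have hXe : X * e = X := by rw [hX, mul_assoc, hwse]
  have hXsM : star X ∈ M := star_mem hXM
  have hXse : star X * e = star X := by
    have := congrArg star heX
    rwa [star_mul, he.2.1.isSelfAdjoint.star_eq] at this
  have heXs : e * star X = star X := by
    have := congrArg star hXe
    rwa [star_mul, he.2.1.isSelfAdjoint.star_eq] at this
  have hxX : star w * X * w = x := by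
    rw [hX]; simp only [mul_assoc]; rw [hww, mul_one, ← mul_assoc, hww, one_mul]
  have hxX' : star w * star X * w = star x := by
    rw [← hxX]; simp only [star_mul, star_star, mul_assoc]
  -- `V V*` fixes both `X η` and `X* η`
  have hfix : ∀ Z ∈ M, e * Z = Z → Z * e = Z → (V * star V) (Z η) = Z η := by
    intro Z hZ h1 h2
    rw [hVV', apply_mul, hcJe Z hZ, heη, ← apply_mul Z e, h2, ← apply_mul e Z, h1]
  have hscale : ∀ Z ∈ M, (star w * Z * w) ζ = ((c⁻¹ : ℝ) : ℂ) • star V (Z η) := by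
    intro Z hZ
    rw [hζ, map_smul, hinter Z hZ]
  have hnX : ‖star V (X η)‖ = ‖X η‖ := by
    have e1 : ⟪star V (X η), star V (X η)⟫_ℂ = ⟪X η, X η⟫_ℂ := by
      rw [ContinuousLinearMap.star_eq_adjoint, ContinuousLinearMap.adjoint_inner_left,
        ← ContinuousLinearMap.star_eq_adjoint, ← apply_mul, hfix X hXM heX hXe]
    rw [inner_self_eq_norm_sq_to_K, inner_self_eq_norm_sq_to_K] at e1
    exact (sq_eq_sq₀ (norm_nonneg _) (norm_nonneg _)).1
      (Complex.ofReal_injective (by simpa using e1))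
  have hxn : ‖x ζ‖ = c⁻¹ * ‖X η‖ := by
    rw [← hxX, hscale X hXM, norm_smul, Complex.norm_real,
      Real.norm_of_nonneg (inv_nonneg.2 hcpos.le), hnX]
  have hXne : X η ≠ 0 := by
    intro h0
    rw [← norm_ne_zero_iff, hxn, h0, norm_zero, mul_zero] at hxne
    exact hxne rfl
  have key : ∀ y ∈ M, ‖⟪star y η, star X η⟫_ℂ - (l : ℂ) * ⟪X η, y η⟫_ℂ‖
      ≤ ε / (‖R‖ + ‖opT R‖ + 1) * ‖X η‖ * (‖y η‖ + ‖star y η‖) := by
    intro y hy
    have hb := hxb (star w * y * w) (mul_mem (mul_mem hwsM hy) hw)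
    have hys : star (star w * y * w) = star w * star y * w := by
      simp only [star_mul, star_star, mul_assoc]
    have hr : ∀ v v' : H, ⟪((c⁻¹ : ℝ) : ℂ) • v, ((c⁻¹ : ℝ) : ℂ) • v'⟫_ℂ
        = ((c⁻¹ * c⁻¹ : ℝ) : ℂ) * ⟪v, v'⟫_ℂ := fun v v' => by
      rw [inner_smul_left, inner_smul_right, Complex.conj_ofReal, Complex.ofReal_mul, mul_assoc]
    have i1 : ⟪star V (star y η), star V (star X η)⟫_ℂ = ⟪star y η, star X η⟫_ℂ := by
      rw [ContinuousLinearMap.star_eq_adjoint, ContinuousLinearMap.adjoint_inner_left,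
        ← ContinuousLinearMap.star_eq_adjoint, ← apply_mul, hfix _ hXsM heXs hXse]
    have i2 : ⟪star V (X η), star V (y η)⟫_ℂ = ⟪X η, y η⟫_ℂ := by
      rw [ContinuousLinearMap.star_eq_adjoint, ContinuousLinearMap.adjoint_inner_right,
        ← ContinuousLinearMap.star_eq_adjoint, ← apply_mul, hfix X hXM heX hXe]
    rw [hxn, hys, ← hxX', hscale _ (star_mem hy), hscale _ hXsM, ← hxX, hscale X hXM, hscale y hy,
      hr, hr, i1, i2, mul_left_comm (l : ℂ), ← mul_sub, norm_mul, Complex.norm_real,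
      Real.norm_of_nonneg (by positivity), norm_smul, norm_smul, Complex.norm_real,
      Real.norm_of_nonneg (inv_nonneg.2 hcpos.le), ← mul_add] at hb
    refine le_of_mul_le_mul_left (hb.trans ?_) (show 0 < c⁻¹ * c⁻¹ by positivity)
    calc _ ≤ ε / (‖R‖ + ‖opT R‖ + 1) * (c⁻¹ * ‖X η‖) * (c⁻¹ * (‖y η‖ + ‖star y η‖)) := by
          refine mul_le_mul_of_nonneg_left (mul_le_mul_of_nonneg_left
            (add_le_add (hVn _) (hVn _)) (inv_nonneg.2 hcpos.le)) (by positivity)
      _ = _ := by ring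
  refine ⟨X, hXM, heX, hXe, hXne, ?_⟩
  set u := (2 : ℂ) • X η - R (X η) - (l : ℂ) • R (X η) with hu
  obtain ⟨δ, hδdef⟩ : ∃ δ : ℝ, δ = ε / (‖R‖ + ‖opT R‖ + 1) := ⟨_, rfl⟩
  rw [← hδdef] at key
  have hδ0 : 0 < δ := hδdef ▸ by positivity
  have hbound : ‖u‖ * ‖u‖ ≤ δ * ‖X η‖ * ((‖R‖ + ‖opT R‖) * ‖u‖) := by
    refine le_of_forall_pos_le_add fun τ hτ => ?_
    set K := ‖star X η‖ + |l| * ‖X η‖ + 2 * (δ * ‖X η‖) + 1 with hK
    obtain ⟨y, hy, h1, h2⟩ := hd.graph u (τ / K) (by positivity)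
    have e1 : ⟪star y η, star X η⟫_ℂ - (l : ℂ) * ⟪X η, y η⟫_ℂ
        - (⟪J (star X η), J (star y η) - opT R u⟫_ℂ - (l : ℂ) * ⟪X η, y η - R u⟫_ℂ) = ⟪u, u⟫_ℂ := by
      rw [inner_sub_right, inner_sub_right, inner_map_map', mul_sub]
      rw [show ⟪u, u⟫_ℂ = ⟪(2 : ℂ) • X η - R (X η) - (l : ℂ) • R (X η), u⟫_ℂ by rw [← hu]]
      rw [inner_sub_left, inner_smul_left, Complex.conj_ofReal, graph_one hd.mod hXM,
        inner_proj opT_selfAdjoint, inner_proj hd.mod.R_sa]
      ring
    have e2 : ‖u‖ * ‖u‖ = ‖⟪u, u⟫_ℂ‖ := by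
      rw [inner_self_eq_norm_sq_to_K, norm_pow]; simp [sq]
    have ny : ‖y η‖ + ‖star y η‖ ≤ (‖R‖ + ‖opT R‖) * ‖u‖ + 2 * (τ / K) := by
      have a1 : ‖y η‖ ≤ ‖R‖ * ‖u‖ + τ / K :=
        calc ‖y η‖ = ‖R u + (y η - R u)‖ := by rw [add_sub_cancel]
          _ ≤ _ := (norm_add_le _ _).trans (add_le_add (R.le_opNorm u) h1)
      have a2 : ‖star y η‖ ≤ ‖opT R‖ * ‖u‖ + τ / K :=
        calc ‖star y η‖ = ‖opT R u + (J (star y η) - opT R u)‖ := by
              rw [add_sub_cancel, J.norm_map]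
          _ ≤ _ := (norm_add_le _ _).trans (add_le_add ((opT R).le_opNorm u) h2)
      linarith
    rw [e2, ← e1]
    refine (norm_sub_le _ _).trans ?_
    refine (add_le_add (key y hy) ((norm_sub_le _ _).trans (add_le_add
      ((norm_inner_le_norm _ _).trans (mul_le_mul_of_nonneg_left h2 (norm_nonneg _)))
      ((norm_mul _ _).le.trans (mul_le_mul_of_nonneg_left
        ((norm_inner_le_norm _ _).trans (mul_le_mul_of_nonneg_left h1 (norm_nonneg _)))
        (norm_nonneg _)))))).trans ?_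
    rw [J.norm_map, Complex.norm_real, Real.norm_eq_abs]
    have hK' : τ / K * K = τ := div_mul_cancel₀ τ (by positivity)
    nlinarith [mul_le_mul_of_nonneg_left ny (mul_nonneg hδ0.le (norm_nonneg (X η))),
      show 0 ≤ τ / K by positivity]
  rcases eq_or_lt_of_le (norm_nonneg u) with h0 | h0
  · rw [← h0]; positivity
  · refine (le_of_mul_le_mul_right (hbound.trans_eq (mul_assoc _ _ _).symm) h0).trans ?_
    have : δ * (‖R‖ + ‖opT R‖ + 1) = ε := by rw [hδdef]; field_simp
    nlinarith [norm_nonneg (X η), mul_nonneg hδ0.le (norm_nonneg (X η))]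

end Vale.Agent.P132.TypeThree
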