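import Vale.Agent.P132.TypeThree.Form

/-!
P132: uniqueness of the modular conjugation of a positive vector, and vectors fixed by the
modular group.
-/

open scoped InnerProductSpace ComplexConjugate

namespace Vale.Agent.P132.TypeThree

open Vale.Agent.P132.Tomita Vale.Agent.P104.Continuous

variable {H : Type} [NormedAddCommGroup H] [InnerProductSpace ℂ H] [CompleteSpace H]
variable {M : VonNeumannAlgebra H} {η : H} {R : H →L[ℂ] H} {J J' : H ≃ₗᵢ⋆[ℂ] H}
  {U : ℝ → (H →L[ℂ] H)}

theorem conjBy_xi (hJη : J η = η) (x : H →L[ℂ] H) : conjBy J x η = J (x η) := by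
  rw [conjBy_apply, hJη]

theorem conjBy_add (J : H ≃ₗᵢ⋆[ℂ] H) (x y : H →L[ℂ] H) :
    conjBy J (x + y) = conjBy J x + conjBy J y := by
  ext v; simp [conjBy_apply]

theorem conjBy_conjBy (hJ : ∀ v, J (J v) = v) (x : H →L[ℂ] H) : conjBy J (conjBy J x) = x := by
  ext v; simp [conjBy_apply, hJ]

/-- The form of a positive vector is hermitian. -/
theorem cone_conj (hc : IsConeVec M J η) {x y : H →L[ℂ] H} (hx : x ∈ M) (hy : y ∈ M) :
    conj ⟪x η, J (star y η)⟫_ℂ = ⟪y η, J (star x η)⟫_ℂ := by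
  have h1 := (hc.2 (x + y) (add_mem hx hy)).2
  have h2 := (hc.2 (x + Complex.I • y) (add_mem hx (smul_mem_vn _ hy))).2
  have hx2 := (hc.2 x hx).2
  have hy2 := (hc.2 y hy).2
  have e1 : ⟪(x + y) η, J (star (x + y) η)⟫_ℂ = ⟪x η, J (star x η)⟫_ℂ + ⟪x η, J (star y η)⟫_ℂ
      + ⟪y η, J (star x η)⟫_ℂ + ⟪y η, J (star y η)⟫_ℂ := by
    simp only [star_add, add_apply, map_add, inner_add_left, inner_add_right]
    ring
  have e2 : ⟪(x + Complex.I • y) η, J (star (x + Complex.I • y) η)⟫_ℂ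
      = ⟪x η, J (star x η)⟫_ℂ + Complex.I * ⟪x η, J (star y η)⟫_ℂ
        - Complex.I * ⟪y η, J (star x η)⟫_ℂ + ⟪y η, J (star y η)⟫_ℂ := by
    simp only [star_add, star_smul, add_apply, smul_apply, map_add,
      LinearIsometryEquiv.map_smulₛₗ, inner_add_left, inner_add_right, inner_smul_left,
      inner_smul_right, Complex.star_def, map_neg, Complex.conj_I, neg_neg]
    linear_combination (-⟪y η, J (star y η)⟫_ℂ) * Complex.I_mul_I
  rw [e1] at h1
  rw [e2] at h2
  simp only [Complex.add_im, Complex.sub_im, Complex.mul_im, Complex.I_re, Complex.I_im, zero_mul,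
    one_mul, zero_add] at h1 h2
  apply Complex.ext
  · rw [Complex.conj_re]; linarith
  · rw [Complex.conj_im]; linarith

/-- A convex bounded sequence cannot increase. -/
theorem le_of_convex_bounded {d : ℕ → ℝ} {C : ℝ} (hC : ∀ n, d n ≤ C)
    (hconv : ∀ n, 2 * d (n + 1) ≤ d (n + 2) + d n) : d 1 ≤ d 0 := by
  by_contra hlt
  have hstep : ∀ n, d 1 - d 0 ≤ d (n + 1) - d n := by
    intro n
    induction n with
    | zero => simp
    | succ n ih => linarith [hconv n]
  have hlin : ∀ n : ℕ, d 0 + n * (d 1 - d 0) ≤ d n := by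
    intro n
    induction n with
    | zero => simp
    | succ n ih => push_cast; linarith [hstep n]
  obtain ⟨n, hn⟩ := exists_nat_gt ((C - d 0) / (d 1 - d 0))
  rw [div_lt_iff₀ (by linarith)] at hn
  linarith [hlin n, hC n]

/-- A symmetric map with bounded orbits contracts a positive form. -/
theorem form_le (h : StdData M η R J' U) {β : (H →L[ℂ] H) → (H →L[ℂ] H)}
    (hβ : ∀ x ∈ M, β x ∈ M)
    (hsym : ∀ x ∈ M, ∀ y ∈ M, ⟪β x η, J' (star y η)⟫_ℂ = ⟪x η, J' (star (β y) η)⟫_ℂ)
    (hn : ∀ x ∈ M, ‖β x η‖ = ‖x η‖) (hn' : ∀ x ∈ M, ‖star (β x) η‖ = ‖star x η‖)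
    {x : H →L[ℂ] H} (hx : x ∈ M) :
    (⟪β x η, J' (star (β x) η)⟫_ℂ).re ≤ (⟪x η, J' (star x η)⟫_ℂ).re := by
  have hm : ∀ n, β^[n] x ∈ M := by
    intro n
    induction n with
    | zero => simpa
    | succ n ih => rw [Function.iterate_succ_apply']; exact hβ _ ih
  have hnorm : ∀ n, ‖β^[n] x η‖ = ‖x η‖ ∧ ‖star (β^[n] x) η‖ = ‖star x η‖ := by
    intro n
    induction n with
    | zero => simp
    | succ n ih =>
      rw [Function.iterate_succ_apply', hn _ (hm n), hn' _ (hm n)]; exact ih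
  refine le_of_convex_bounded
    (d := fun n => (⟪β^[n] x η, J' (star (β^[n] x) η)⟫_ℂ).re) (C := ‖x η‖ * ‖star x η‖)
    (fun n => ?_) fun n => ?_
  · refine (Complex.re_le_norm _).trans ((norm_inner_le_norm _ _).trans_eq ?_)
    rw [J'.norm_map, (hnorm n).1, (hnorm n).2]
  · simp only [Function.iterate_succ_apply']
    have hw := hm n
    generalize β^[n] x = w at hw ⊢
    have h2 := hβ _ (hβ w hw)
    have key := ((isConeVec_self h.mod).2 (β (β w) - w) (sub_mem h2 hw)).1
    simp only [star_sub, sub_apply, map_sub, inner_sub_left, inner_sub_right, Complex.sub_re]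
      at key
    have e1 := congrArg Complex.re (hsym (β w) (hβ w hw) w hw)
    have e2 : (⟪w η, J' (star (β (β w)) η)⟫_ℂ).re = (⟪β (β w) η, J' (star w η)⟫_ℂ).re := by
      rw [← form_conj h.mod h2 hw, Complex.conj_re]
    linarith

/-- The conjugation of a standard vector is the only one for which that vector is positive. -/
theorem conj_unique (h : StdData M η R J' U) (hJ : ∀ v, J (J v) = v)
    (hmem : ∀ x ∈ M, conjBy J x ∈ M.commutant) (hmem' : ∀ y ∈ M.commutant, conjBy J y ∈ M)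
    (hc : IsConeVec M J η) : ∀ v, J v = J' v := by
  have hη := hc.1
  have hη' := h.mod.J_xi
  obtain ⟨β, hβ⟩ : ∃ β : (H →L[ℂ] H) → (H →L[ℂ] H), β = fun y => conjBy J' (conjBy J y) :=
    ⟨_, rfl⟩
  obtain ⟨γ, hγ⟩ : ∃ γ : (H →L[ℂ] H) → (H →L[ℂ] H), γ = fun y => conjBy J (conjBy J' y) :=
    ⟨_, rfl⟩
  have hβM : ∀ x ∈ M, β x ∈ M := fun x hx => by
    rw [hβ]; exact h.mod.conj_mem' _ (hmem x hx)
  have hγM : ∀ x ∈ M, γ x ∈ M := fun x hx => by
    rw [hγ]; exact hmem' _ (h.mod.conj_mem x hx)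
  have hβγ : ∀ x, β (γ x) = x := fun x => by
    simp [hβ, hγ, conjBy_conjBy hJ, conjBy_conjBy h.mod.J_J]
  have hβη : ∀ x, β x η = J' (J (x η)) := fun x => by
    simp [hβ, conjBy_apply, hη, hη']
  have hγη : ∀ x, γ x η = J (J' (x η)) := fun x => by
    simp [hγ, conjBy_apply, hη, hη']
  have hβs : ∀ x, star (β x) = β (star x) := fun x => by
    simp [hβ, star_conjBy hJ, star_conjBy h.mod.J_J]
  have hγs : ∀ x, star (γ x) = γ (star x) := fun x => by
    simp [hγ, star_conjBy hJ, star_conjBy h.mod.J_J]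
  -- the form of `J` is the form of `J'` twisted by `β`
  have hq : ∀ x y : H →L[ℂ] H, ⟪x η, J (star y η)⟫_ℂ = ⟪x η, J' (star (β y) η)⟫_ℂ := fun x y => by
    rw [hβs, hβη, h.mod.J_J]
  have hsymβ : ∀ x ∈ M, ∀ y ∈ M,
      ⟪β x η, J' (star y η)⟫_ℂ = ⟪x η, J' (star (β y) η)⟫_ℂ := by
    intro x hx y hy
    rw [← form_conj h.mod hy (hβM x hx), ← hq, ← hq, cone_conj hc hy hx]
  have hsymγ : ∀ x ∈ M, ∀ y ∈ M,
      ⟪γ x η, J' (star y η)⟫_ℂ = ⟪x η, J' (star (γ y) η)⟫_ℂ := by
    intro x hx y hy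
    have e := hsymβ (γ x) (hγM x hx) (γ y) (hγM y hy)
    rw [hβγ, hβγ] at e
    exact e.symm
  have heq : ∀ x ∈ M,
      (⟪β x η, J' (star (β x) η)⟫_ℂ).re = (⟪x η, J' (star x η)⟫_ℂ).re := by
    intro x hx
    refine le_antisymm (form_le h hβM hsymβ (fun z _ => ?_) (fun z _ => ?_) hx) ?_
    · rw [hβη, J'.norm_map, J.norm_map]
    · rw [hβs, hβη, J'.norm_map, J.norm_map]
    · have e := form_le h hγM hsymγ (fun z _ => ?_) (fun z _ => ?_) (hβM x hx)
      · rwa [show γ (β x) = x by simp [hβ, hγ, conjBy_conjBy hJ, conjBy_conjBy h.mod.J_J]] at e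
      · rw [hγη, J.norm_map, J'.norm_map]
      · rw [hγs, hγη, J.norm_map, J'.norm_map]
  -- `β² = 1`
  have hsq : ∀ x ∈ M, β (β x) = x := by
    intro x hx
    have h2 := hβM _ (hβM x hx)
    refine sub_eq_zero.1 (form_faithful h (sub_mem h2 hx) ?_)
    simp only [star_sub, sub_apply, map_sub, inner_sub_left, inner_sub_right, Complex.sub_re]
    have e1 := heq (β x) (hβM x hx)
    have e2 := heq x hx
    have e3 := congrArg Complex.re (hsymβ (β x) (hβM x hx) x hx)
    have e4 : (⟪x η, J' (star (β (β x)) η)⟫_ℂ).re = (⟪β (β x) η, J' (star x η)⟫_ℂ).re := by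
      rw [← form_conj h.mod h2 hx, Complex.conj_re]
    linarith
  have hone : ∀ x ∈ M, β x = x := by
    intro x hx
    obtain ⟨w, hw⟩ : ∃ w, w = β x - x := ⟨_, rfl⟩
    have hwM : w ∈ M := hw ▸ sub_mem (hβM x hx) hx
    have hneg : β w = -w := by
      have hsub : β (β x - x) = β (β x) - β x := by
        rw [hβ]; ext v; simp [conjBy_apply]
      rw [hw, hsub, hsq x hx]; abel
    have hpos := (hc.2 w hwM).1
    rw [hq, hneg, star_neg, neg_apply, map_neg, inner_neg_right, Complex.neg_re] at hpos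
    have h0 := ((isConeVec_self h.mod).2 w hwM).1
    refine sub_eq_zero.1 ?_
    rw [← hw]
    exact form_faithful h hwM (by linarith)
  intro v
  refine congrFun (Continuous.ext_on h.std.2.1 J.continuous J'.continuous ?_) v
  rintro _ ⟨x, hx, rfl⟩
  have e := congrArg J' (hβη x)
  rwa [hone x hx, h.mod.J_J, eq_comm] at e

/-! ### Vectors fixed by the modular group -/

/-- A continuous function of `R` acts on a fixed vector of `R` as a scalar. -/
theorem cfc_fixed (hsa : IsSelfAdjoint R) (hspec : spectrum ℝ R ⊆ Set.Icc 0 2) {v : H}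
    (hv : R v = v) {g : ℝ → ℝ} (hg : Continuous g) : cfc g R v = g 1 • v := by
  have hp : ∀ p : Polynomial ℝ, cfc (fun r => p.eval r) R v = p.eval 1 • v := by
    intro p
    induction p using Polynomial.induction_on with
    | C a => simp [cfc_const a R hsa, Algebra.algebraMap_eq_smul_one]
    | add p q hp hq =>
      simp only [Polynomial.eval_add]
      rw [cfc_add (a := R) (fun r => p.eval r) (fun r => q.eval r) p.continuous.continuousOn
        q.continuous.continuousOn, add_apply, hp, hq,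
        add_smul]
    | monomial n a ih =>
      simp only [pow_succ, ← mul_assoc, Polynomial.eval_mul, Polynomial.eval_X] at ih ⊢
      rw [cfc_mul (fun r : ℝ => (Polynomial.C a).eval r * (Polynomial.X ^ n).eval r) (fun r => r) R
        (by fun_prop) continuousOn_id, cfc_id' ℝ R hsa, apply_mul, hv, ih,
        mul_one]
  refine eq_of_forall_dist_le fun ε hε => ?_
  obtain ⟨p, hp'⟩ := exists_polynomial_near_of_continuousOn 0 2 g hg.continuousOn
    (ε / (2 * ‖v‖ + 1)) (by positivity)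
  have hb : ‖cfc g R - cfc (fun r => p.eval r) R‖ ≤ ε / (2 * ‖v‖ + 1) := by
    rw [← cfc_sub g _ R hg.continuousOn p.continuous.continuousOn]
    refine norm_cfc_le (by positivity) fun r hr => ?_
    rw [Real.norm_eq_abs, abs_sub_comm]
    exact (hp' r (hspec hr)).le
  rw [dist_eq_norm]
  calc ‖cfc g R v - g 1 • v‖
      = ‖(cfc g R - cfc (fun r => p.eval r) R) v + (p.eval 1 - g 1) • v‖ := by
        rw [sub_apply, hp, sub_smul]; congr 1; abel
    _ ≤ ε / (2 * ‖v‖ + 1) * ‖v‖ + ε / (2 * ‖v‖ + 1) * ‖v‖ := by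
        refine (norm_add_le _ _).trans (add_le_add ?_ ?_)
        · exact (ContinuousLinearMap.le_opNorm _ _).trans
            (mul_le_mul_of_nonneg_right hb (norm_nonneg _))
        · rw [norm_smul, Real.norm_eq_abs]
          exact mul_le_mul_of_nonneg_right (hp' 1 ⟨by norm_num, by norm_num⟩).le (norm_nonneg _)
    _ ≤ ε := by
        rw [← two_mul, ← mul_assoc, mul_div_assoc', div_mul_eq_mul_div,
          div_le_iff₀ (by positivity)]
        nlinarith [norm_nonneg v]

end Vale.Agent.P132.TypeThree
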